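import Vale.Agent.P011LN.Tri

/-!
Invariance of the trilinear form, the blocks, the composition identity.
-/

set_option linter.all false

open Matrix

namespace Vale.Agent.P011LN

open Vale.Agent.P011L Vale.Agent.P011LT

variable {K : Type} [Field K]

/-- the basis vectors -/
def ev (p : I) : I → K := Pi.single p 1

theorem ev_self (p : I) : (ev p : I → K) p = 1 := Pi.single_eq_same _ _

theorem ev_ne {p q : I} (h : q ≠ p) : (ev p : I → K) q = 0 := Pi.single_eq_of_ne h _

theorem ev_apply (p q : I) : (ev p : I → K) q = if q = p then 1 else 0 := Pi.single_apply _ _ _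

theorem mulVec_ev (M : Matrix I I K) (p a : I) : (M *ᵥ ev p) a = M a p :=
  congrFun (mulVec_single_one M p) a

theorem tri12 (x y z : I → K) : tri x y z = tri y x z := by
  rw [tri_pol, tri_pol, add_comm x y]; ring

theorem tri23 (x y z : I → K) : tri x y z = tri x z y := by
  rw [tri_pol, tri_pol, add_right_comm x y, add_comm y z]; ring

theorem cub_smul (c : K) (x : I → K) : cub (c • x) = c ^ 3 * cub x := by
  simp only [cub, det_fin_three, trace_fin_three, mul_apply, Fin.sum_univ_three, of_apply,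
    Pi.smul_apply, smul_eq_mul]
  ring

theorem tri_six (x : I → K) : tri x x x = 6 * cub x := by
  have h2 : x + x = (2 : K) • x := (two_smul K x).symm
  have h3 : (2 : K) • x + x = (3 : K) • x := by
    rw [show (3 : K) = 2 + 1 by norm_num, add_smul, one_smul]
  rw [tri_pol, h2, h3, cub_smul, cub_smul]; ring

theorem tri_e3 (x y : I → K) (r : I) :
    tri x y (ev r) = ∑ q, (sg q r : K) * (x (th q r) * y q) := by
  rw [tri_apply]
  exact Finset.sum_congr rfl fun q _ => by
    rw [Finset.sum_eq_single r (fun s _ h => by simp [ev_ne h]) (by simp), ev_self, mul_one]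

theorem tri_e2 (x y : I → K) (q : I) :
    tri x (ev q) y = ∑ r, (sg q r : K) * (x (th q r) * y r) := by
  rw [tri_apply, Finset.sum_eq_single q (fun s _ h => by simp [ev_ne h]) (by simp)]
  simp only [ev_self, one_mul]

theorem tri_ee (x : I → K) (q r : I) : tri x (ev q) (ev r) = sg q r * x (th q r) := by
  rw [tri_e3, Finset.sum_eq_single q (fun s _ h => by simp [ev_ne h]) (by simp), ev_self, mul_one]

theorem tri_eee (p q r : I) : tri (ev p : I → K) (ev q) (ev r) = n3 p q r := by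
  rw [tri_ee, n3]
  split_ifs with h
  · rw [h, ev_self, mul_one]
  · rw [ev_ne (Ne.symm h), mul_zero, Int.cast_zero]

theorem ext3 {F G : T3 K} (h : ∀ p q r, F (ev p) (ev q) (ev r) = G (ev p) (ev q) (ev r)) : F = G :=
  (Pi.basisFun K I).ext fun p => (Pi.basisFun K I).ext fun q => (Pi.basisFun K I).ext fun r => by
    simpa only [Pi.basisFun_apply, ev] using h p q r

/-- composition with three matrices -/
noncomputable def cmp (A B C : Matrix I I K) : T3 K :=
  (tri.compl₁₂ A.mulVecLin B.mulVecLin).compr₂ (LinearMap.lcomp K K C.mulVecLin)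

theorem cmp_apply (A B C : Matrix I I K) (x y z : I → K) :
    cmp A B C x y z = tri (A *ᵥ x) (B *ᵥ y) (C *ᵥ z) := rfl

/-- invariance -/
def Inv (M : Matrix I I K) : Prop := ∀ x y z, tri (M *ᵥ x) (M *ᵥ y) (M *ᵥ z) = tri x y z

theorem inv_of_SE {g : GL I K} (h : g ∈ SE K) : Inv g.1 := fun x y z => by
  simp only [tri_pol, ← mulVec_add, mem_SE.1 h]

theorem SE_of_inv [CharZero K] {g : GL I K} (h : Inv g.1) : g ∈ SE K := mem_SE.2 fun x =>
  mul_left_cancel₀ (show (6 : K) ≠ 0 by norm_num) (by rw [← tri_six, ← tri_six, h])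

theorem inv_of_ev {M : Matrix I I K}
    (h : ∀ p q r, tri (M *ᵥ ev p) (M *ᵥ ev q) (M *ᵥ ev r) = n3 p q r) : Inv M := fun x y z => by
  rw [← cmp_apply, ext3 (F := cmp M M M) (G := tri) fun p q r => (h p q r).trans (tri_eee p q r).symm]

theorem Inv.mul {M N : Matrix I I K} (h : Inv M) (h' : Inv N) : Inv (M * N) := fun x y z => by
  simp only [← mulVec_mulVec]; rw [h, h']

theorem Inv.inv {M N : Matrix I I K} (h : Inv M) (e : M * N = 1) : Inv N := fun x y z => by
  rw [← h]; simp only [mulVec_mulVec, e, one_mulVec]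

/-- infinitesimal invariance -/
def Lie (X : Matrix I I K) : Prop :=
  ∀ x y z, tri (X *ᵥ x) y z + tri x (X *ᵥ y) z + tri x y (X *ᵥ z) = 0

theorem lie_of_ev {X : Matrix I I K} (h : ∀ p q r, tri (X *ᵥ ev p) (ev q) (ev r) +
    tri (ev p) (X *ᵥ ev q) (ev r) + tri (ev p) (ev q) (X *ᵥ ev r) = 0) : Lie X := fun x y z => by
  have := ext3 (F := cmp X 1 1 + cmp 1 X 1 + cmp 1 1 X) (G := 0) fun p q r => by
    simpa only [LinearMap.add_apply, cmp_apply, one_mulVec, LinearMap.zero_apply] using h p q r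
  simpa only [LinearMap.add_apply, cmp_apply, one_mulVec, LinearMap.zero_apply] using
    congrArg (fun F : T3 K => F x y z) this

theorem Lie.conj {X g g' : Matrix I I K} (h : Lie X) (hg : Inv g) (e : g * g' = 1) :
    Lie (g * X * g') := fun x y z => by
  have a : ∀ x : I → K, x = g *ᵥ g' *ᵥ x := fun x => by rw [mulVec_mulVec, e, one_mulVec]
  simp only [← mulVec_mulVec]
  rw [← h (g' *ᵥ x) (g' *ᵥ y) (g' *ᵥ z), ← hg (X *ᵥ _), ← hg _ (X *ᵥ _), ← hg _ _ (X *ᵥ _),
    ← a, ← a, ← a]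

theorem Lie.inv [CharZero K] {X : Matrix I I K} (h : Lie X) (h2 : X * X = 0) (s : K) :
    Inv (1 + s • X) := fun x y z => by
  have a : ∀ x : I → K, X *ᵥ X *ᵥ x = 0 := fun x => by rw [mulVec_mulVec, h2, zero_mulVec]
  have a1 := h (X *ᵥ x) y z
  have a2 := h x (X *ᵥ y) z
  have a3 := h x y (X *ᵥ z)
  have a4 := h (X *ᵥ x) (X *ᵥ y) z
  simp only [a, map_zero, LinearMap.zero_apply] at a1 a2 a3 a4
  simp only [add_mulVec, one_mulVec, smul_mulVec, map_add, map_smul, LinearMap.add_apply,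
    LinearMap.smul_apply, smul_eq_mul]
  linear_combination s * h x y z + s ^ 2 / 2 * (a1 + a2 + a3) + s ^ 3 * a4

/-- the blocks -/
def blk (p : I) : Fin 4 :=
  if p.1 = 0 then (if p.2.1 = p.2.2 then 3 else (2 * (p.2.1 + p.2.2)).castSucc)
  else if p.1 = 1 then p.2.1.castSucc else p.2.2.castSucc

/-- the three fixed indices -/
abbrev ix (i : Fin 3) : I := (0, i, i)

/-- the three vectors are fixed -/
def Fx (M : Matrix I I K) : Prop := ∀ i, M *ᵥ ev (ix i) = ev (ix i)

/-- block diagonal -/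
def Bd (M : Matrix I I K) : Prop := ∀ a b, blk a ≠ blk b → M a b = 0

theorem Fx.mul {M N : Matrix I I K} (h : Fx M) (h' : Fx N) : Fx (M * N) := fun i => by
  rw [← mulVec_mulVec, h', h]

theorem Fx.inv {M N : Matrix I I K} (h : Fx M) (e : N * M = 1) : Fx N := fun i => by
  rw [← h i, mulVec_mulVec, e, one_mulVec, h i]

theorem Bd.mul {M N : Matrix I I K} (h : Bd M) (h' : Bd N) : Bd (M * N) := fun a b e => by
  rw [mul_apply]
  refine Finset.sum_eq_zero fun c _ => ?_
  by_cases h1 : blk a = blk c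
  · rw [h' c b (h1 ▸ e), mul_zero]
  · rw [h a c h1, zero_mul]

theorem Bd.diag (d : I → K) : Bd (diagonal d) := fun a b e => diagonal_apply_ne _ fun h => e (h ▸ rfl)

theorem Bd.comm {M : Matrix I I K} (h : Bd M) (c : Fin 4 → K) :
    M * diagonal (fun p => c (blk p)) = diagonal (fun p => c (blk p)) * M := by
  ext a b
  rw [mul_diagonal, diagonal_mul]
  by_cases e : blk a = blk b
  · rw [e, mul_comm]
  · rw [h a b e, zero_mul, mul_zero]

theorem blk3 : ∀ b : I, blk b = 3 → b = ix b.2.1 := by decide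

theorem Fx.col {M : Matrix I I K} (h : Fx M) {b : I} (hb : blk b = 3) (a : I) :
    M a b = (1 : Matrix I I K) a b := by
  have := congrFun (h b.2.1) a
  rw [← blk3 b hb, mulVec_ev] at this
  exact this.trans (by rw [one_apply, ev_apply])

theorem bd_cert : ∀ a b : I, blk b ≠ 3 → blk a ≠ blk b → ∃ i r, sg (ix i) r ≠ 0 ∧
    th (ix i) r = a ∧ ∀ r', sg (ix i) r' ≠ 0 → th (ix i) r' ≠ b := by decide +kernel

theorem bd_of [CharZero K] {M M' : Matrix I I K} (h : Inv M) (hf : Fx M) (e : M * M' = 1) :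
    Bd M := fun a b hab => by
  by_cases h3 : blk b = 3
  · rw [hf.col h3, one_apply_ne fun h => hab (congrArg blk h)]
  obtain ⟨i, r, h1, h2, h4⟩ := bd_cert a b h3 hab
  have h5 := h (ev b) (ev (ix i)) (M' *ᵥ ev r)
  rw [hf, mulVec_mulVec, e, one_mulVec, tri_ee, h2, mulVec_ev, tri_e2,
    Finset.sum_eq_zero fun r' _ => ?_] at h5
  · exact (mul_eq_zero.1 h5).resolve_left (Int.cast_ne_zero.2 h1)
  · by_cases h6 : sg (ix i) r' = 0
    · rw [h6, Int.cast_zero, zero_mul]
    · rw [ev_ne (h4 r' h6), zero_mul, mul_zero]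

/-- supported in a block -/
def Sup (j : Fin 4) (x : I → K) : Prop := ∀ p, blk p ≠ j → x p = 0

theorem Bd.sup {M : Matrix I I K} (h : Bd M) {j : Fin 4} {x : I → K} (hx : Sup j x) :
    Sup j (M *ᵥ x) := fun a e => by
  show ∑ c, M a c * x c = 0
  refine Finset.sum_eq_zero fun c _ => ?_
  by_cases h1 : blk a = blk c
  · rw [hx c (h1 ▸ e), mul_zero]
  · rw [h a c h1, zero_mul]

theorem sup_ev (p : I) : Sup (blk p) (ev p : I → K) := fun q e =>
  ev_ne fun h => e (congrArg blk h)

theorem rad_cert : ∀ (i : Fin 3) (r : I), sg (ix i) r ≠ 0 →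
    blk (th (ix i) r) = 3 ∨ blk (th (ix i) r) = i.castSucc := by decide +kernel

theorem Sup.rad {j : Fin 4} {x : I → K} (hx : Sup j x) {i : Fin 3} (h3 : j ≠ 3)
    (hi : j ≠ i.castSucc) (y : I → K) : tri x (ev (ix i)) y = 0 := by
  rw [tri_e2]
  refine Finset.sum_eq_zero fun r _ => ?_
  by_cases h : sg (ix i) r = 0
  · rw [h, Int.cast_zero, zero_mul]
  · rw [hx _ fun e => (rad_cert i r h).elim (fun a => h3 (e ▸ a)) fun a => hi (e ▸ a), zero_mul,
      mul_zero]

set_option maxRecDepth 20000 in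
theorem compo {u v x : I → K} (hu : Sup 0 u) (hv : Sup 1 v) (hx : Sup 2 x)
    (h : ∀ r, blk r = 2 → tri x (ev (ix 2)) (ev r) = tri u v (ev r)) :
    -2 * tri x (ev (ix 2)) x = tri u (ev (ix 0)) u * tri v (ev (ix 1)) v := by
  have a1 := h (0, 0, 1) rfl
  have a2 := h (0, 1, 0) rfl
  have a3 := h (1, 2, 0) rfl
  have a4 := h (1, 2, 1) rfl
  have a5 := h (1, 2, 2) rfl
  have a6 := h (2, 0, 2) rfl
  have a7 := h (2, 1, 2) rfl
  have a8 := h (2, 2, 2) rfl
  rw [tri_ee, tri_e3] at a1 a2 a3 a4 a5 a6 a7 a8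
  simp only [tri_e2]
  simp only [Fintype.sum_prod_type, Fin.sum_univ_three, sg, th, ep, Fin.reduceEq,
    Fin.reduceAdd, Fin.reduceMul, reduceIte, Fin.isValue, mul_zero, zero_mul, Int.cast_zero,
    add_zero, zero_add, neg_zero, mul_one, mul_neg, neg_neg, Int.cast_one, Int.cast_neg, one_mul,
    neg_mul, neg_eq_iff_eq_neg] at a1 a2 a3 a4 a5 a6 a7 a8 ⊢
  rw [a1, a2, a3, a4, a5, a6, a7, a8]
  simp only [mul_zero, zero_mul, add_zero, zero_add, neg_zero, hu (0, 0, 0) (by decide), hu (0, 0,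
    1) (by decide), hu (0, 0, 2) (by decide), hu (0, 1, 0) (by decide), hu (0, 1, 1) (by decide),
    hu (0, 2, 0) (by decide), hu (0, 2, 2) (by decide), hu (1, 1, 0) (by decide), hu (1, 1, 1) (by
    decide), hu (1, 1, 2) (by decide), hu (1, 2, 0) (by decide), hu (1, 2, 1) (by decide), hu (1,
    2, 2) (by decide), hu (2, 0, 1) (by decide), hu (2, 0, 2) (by decide), hu (2, 1, 1) (by
    decide), hu (2, 1, 2) (by decide), hu (2, 2, 1) (by decide), hu (2, 2, 2) (by decide), hv (0,
    0, 0) (by decide), hv (0, 0, 1) (by decide), hv (0, 1, 0) (by decide), hv (0, 1, 1) (by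
    decide), hv (0, 1, 2) (by decide), hv (0, 2, 1) (by decide), hv (0, 2, 2) (by decide), hv (1,
    0, 0) (by decide), hv (1, 0, 1) (by decide), hv (1, 0, 2) (by decide), hv (1, 2, 0) (by
    decide), hv (1, 2, 1) (by decide), hv (1, 2, 2) (by decide), hv (2, 0, 0) (by decide), hv (2,
    0, 2) (by decide), hv (2, 1, 0) (by decide), hv (2, 1, 2) (by decide), hv (2, 2, 0) (by
    decide), hv (2, 2, 2) (by decide), hx (0, 0, 0) (by decide), hx (0, 1, 1) (by decide)]
  ring

end Vale.Agent.P011LN
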