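import Vale.Agent.P011LA.Tor
import Mathlib.Algebra.Polynomial.Taylor
import Mathlib.Algebra.Polynomial.Derivative
import Mathlib.Tactic.FieldSimp
import Mathlib.Tactic.NoncommRing

/-!
General lemmas on minuscule representations: strings, shifts, uniqueness, differentials.
-/

set_option linter.all false

open Matrix Function Polynomial

namespace Vale.Agent.P011LN

open Vale.Agent.P011LA

variable {K R J : Type} [Field K] [Fintype R] [Fintype J] [DecidableEq J]

/-- the matrix shifts the weights by `γ` -/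
def Sh (w : J → R → ℤ) (γ : R → ℤ) (M : Matrix J J K) : Prop :=
  ∀ a b, M a b ≠ 0 → w a = w b + γ

theorem Sh.mul {w : J → R → ℤ} {γ δ : R → ℤ} {M N : Matrix J J K} (h : Sh w γ M) (h' : Sh w δ N) :
    Sh w (γ + δ) (M * N) := fun a b e => by
  rw [mul_apply] at e
  obtain ⟨c, -, hc⟩ := Finset.exists_ne_zero_of_sum_ne_zero e
  rw [h a c (left_ne_zero_of_mul hc), h' c b (right_ne_zero_of_mul hc), add_assoc, add_comm δ]

theorem Sh.diag {w : J → R → ℤ} {γ : R → ℤ} {M : Matrix J J K} (h : Sh w γ M) (h0 : γ ≠ 0)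
    (a : J) : M a a = 0 := by
  by_contra e
  exact h0 (left_eq_add.1 (h a a e))

theorem mul_one_term {M N : Matrix J J K} {a b c : J} (h : ∀ d, M a d ≠ 0 → N d b ≠ 0 → d = c) :
    (M * N) a b = M a c * N c b := by
  rw [mul_apply]
  exact Finset.sum_eq_single c (fun d _ e => by_contra fun h1 =>
    e (h d (left_ne_zero_of_mul h1) (right_ne_zero_of_mul h1))) (by simp)

theorem edge {w : J → R → ℤ} {α : R → ℤ} {e f : Matrix J J K} (he : Sh w α e) (hf : Sh w (-α) f)
    (h0 : α ≠ 0) {a b : J} (h1 : ∀ c, w c = w b + α → c = a) (h2 : ∀ c, w b ≠ w c + α)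
    (hn : ((1 + e) * (1 - f) * (1 + e)) b b = 0) : f b a * e a b = 1 := by
  have a1 : (1 + e) * (1 - f) * (1 + e) = 1 + e - f - f * e + e * ((1 - f) * (1 + e)) := by
    noncomm_ring
  have a2 : (e * ((1 - f) * (1 + e))) b b = 0 := by
    rw [mul_apply]
    exact Finset.sum_eq_zero fun c _ => by
      rw [by_contra fun h => h2 c (he b c h), zero_mul]
  rw [a1, Matrix.add_apply, a2, Matrix.sub_apply, Matrix.sub_apply, Matrix.add_apply, he.diag h0,
    hf.diag (neg_ne_zero.2 h0), one_apply_eq,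
    mul_one_term (c := a) fun d _ h => h1 d (he d b h)] at hn
  linear_combination -hn

theorem min_iso {S : Type} (w : J → R → ℤ) (α : S → R → ℤ) (ht : (R → ℤ) →+ ℤ)
    (hα : ∀ i, 0 < ht (α i)) (hw : ∀ a a' b i, w a = w b + α i → w a' = w b + α i → a = a')
    (hw' : ∀ a b b' i, w a = w b + α i → w a = w b' + α i → b = b')
    {e f e' f' : S → Matrix J J K} (he : ∀ i, Sh w (α i) (e i)) (hf : ∀ i, Sh w (-α i) (f i))
    (he' : ∀ i, Sh w (α i) (e' i)) (hf' : ∀ i, Sh w (-α i) (f' i))
    (ed : ∀ i a b, w a = w b + α i → f i b a * e i a b = 1)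
    (ed' : ∀ i a b, w a = w b + α i → f' i b a * e' i a b = 1)
    (cm : ∀ i j, i ≠ j → e i * f j = f j * e i) (cm' : ∀ i j, i ≠ j → e' i * f' j = f' j * e' i) :
    ∃ d : J → K, (∀ a, d a ≠ 0) ∧ (∀ i, e' i * diagonal d = diagonal d * e i) ∧
      ∀ i, f' i * diagonal d = diagonal d * f i := by
  classical
  obtain ⟨M, hM⟩ := (Set.finite_range fun a => ht (w a)).bddAbove
  obtain ⟨M', hM'⟩ := (Set.finite_range fun a => ht (w a)).bddBelow
  have sq : ∀ {e f : S → Matrix J J K}, (∀ i, Sh w (α i) (e i)) → (∀ i, Sh w (-α i) (f i)) →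
      (∀ i a b, w a = w b + α i → f i b a * e i a b = 1) →
      (∀ i j, i ≠ j → e i * f j = f j * e i) → ∀ i j a a' b c, i ≠ j → w a = w b + α i →
      w a' = w b + α j → w c = w a' + α i → w c = w a + α j →
      e i a b * e j c a = e i c a' * e j a' b := fun {e f} he hf ed cm i j a a' b c h h1 h2 h3 h4 => by
    have a1 := congrFun (congrFun (cm i j h) a) a'
    rw [mul_one_term (c := b) fun d h5 _ => hw' a d b i (he i a d h5) h1,
      mul_one_term (c := c) fun d _ h5 => hw d c a' i (he i d a' h5) h3] at a1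
    linear_combination (e j c a * e j a' b) * a1 - (e i a b * e j c a) * ed j a' b h2 +
      (e i c a' * e j a' b) * ed j c a h4
  have key : ∀ m : ℕ, ∃ d : J → K, (∀ a, d a ≠ 0) ∧ ∀ i a b, w a = w b + α i →
      M - m < ht (w b) → e' i a b * d b = d a * e i a b := fun m => by
    induction m with
    | zero => exact ⟨1, fun _ => one_ne_zero, fun i a b _ h =>
        absurd (hM ⟨b, rfl⟩) (by simpa using h)⟩
    | succ m ih =>
      obtain ⟨d, d0, hd⟩ := ih
      have nz : ∀ i a b, w a = w b + α i → e i a b ≠ 0 ∧ e' i a b ≠ 0 := fun i a b h =>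
        ⟨right_ne_zero_of_mul_eq_one (ed i a b h), right_ne_zero_of_mul_eq_one (ed' i a b h)⟩
      let d' : J → K := fun b =>
        if h : ht (w b) = M - m ∧ ∃ p : S × J, w p.2 = w b + α p.1 then
          d h.2.choose.2 * e h.2.choose.1 h.2.choose.2 b / e' h.2.choose.1 h.2.choose.2 b else d b
      have up : ∀ i a b, w a = w b + α i → ht (w b) < ht (w a) := fun i a b h => by
        rw [h, map_add]; linarith [hα i]
      have same : ∀ a, M - m < ht (w a) → d' a = d a := fun a h => dif_neg fun h1 => h.ne' h1.1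
      refine ⟨d', fun b => ?_, fun i a b h h1 => ?_⟩
      · by_cases h : ht (w b) = M - m ∧ ∃ p : S × J, w p.2 = w b + α p.1
        · rw [show d' b = _ from dif_pos h]
          exact div_ne_zero (mul_ne_zero (d0 _) (nz _ _ _ h.2.choose_spec).1) (nz _ _ _ h.2.choose_spec).2
        · rw [show d' b = _ from dif_neg h]; exact d0 b
      · have h2 := up i a b h
        by_cases h3 : M - m < ht (w b)
        · rw [same b h3, same a (h3.trans h2)]; exact hd i a b h h3
        have h4 : ht (w b) = M - m := by push_cast at h1; omega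
        have h5 : ht (w b) = M - m ∧ ∃ p : S × J, w p.2 = w b + α p.1 := ⟨h4, (i, a), h⟩
        rw [same a (h4 ▸ h2), show d' b = _ from dif_pos h5]
        have h6 := h5.2.choose_spec
        generalize h5.2.choose = p at h6
        obtain ⟨j, a'⟩ := p
        dsimp only at h6 ⊢
        have h7 := (nz _ _ _ h6).2
        by_cases ij : i = j
        · subst ij
          rw [hw a' a b i h6 h] at h7 ⊢
          field_simp
        have a1 := congrFun (congrFun (cm i j ij) a) a'
        rw [mul_one_term (c := b) fun d h5 _ => hw' a d b i (he i a d h5) h, mul_apply] at a1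
        obtain ⟨c, -, hc⟩ := Finset.exists_ne_zero_of_sum_ne_zero (a1 ▸ mul_ne_zero (nz _ _ _ h).1
          (left_ne_zero_of_mul_eq_one (ed _ _ _ h6)))
        have c1 := he i c a' (right_ne_zero_of_mul hc)
        have c2 : w c = w a + α j := by rw [hf j a c (left_ne_zero_of_mul hc)]; simp
        have s1 := sq he hf ed cm i j a a' b c ij h h6 c1 c2
        have s2 := sq he' hf' ed' cm' i j a a' b c ij h h6 c1 c2
        have s3 := hd j c a c2 (h4 ▸ h2)
        have s4 := hd i c a' c1 (h4 ▸ up j a' b h6)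
        have h8 := (nz _ _ _ c2).2
        field_simp
        refine mul_left_cancel₀ h8 ?_
        linear_combination (d a' * e j a' b) * s2 + (e j a' b * e' j a' b) * s4 -
          (d c * e' j a' b) * s1 - (e i a b * e' j a' b) * s3
  obtain ⟨d, d0, hd⟩ := key (M - M' + 1).toNat
  have hd' : ∀ i a b, w a = w b + α i → e' i a b * d b = d a * e i a b := fun i a b h =>
    hd i a b h (by have := hM' ⟨b, rfl⟩; dsimp only at this; omega)
  refine ⟨d, d0, fun i => ?_, fun i => ?_⟩ <;> ext a b <;> rw [mul_diagonal, diagonal_mul]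
  · by_cases h : w a = w b + α i
    · exact hd' i a b h
    · rw [by_contra fun h1 => h (he i a b h1), by_contra fun h1 => h (he' i a b h1), zero_mul, mul_zero]
  · by_cases h : w b = w a + α i
    · linear_combination (-(f' i a b * f i a b)) * hd' i b a h + (d a * f i a b) * ed' i b a h -
        (f' i a b * d b) * ed i b a h
    · have z : ∀ f : Matrix J J K, Sh w (-α i) f → f a b = 0 := fun f hf =>
        by_contra fun h1 => h (by rw [hf a b h1]; simp)
      rw [z _ (hf i), z _ (hf' i), zero_mul, mul_zero]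

theorem diff1 {σ : Type} (p : MvPolynomial σ K) (u : σ → K) : ∃ l : (σ → K) →ₗ[K] K, ∀ v,
    ∃ q : K[X], ∀ s, MvPolynomial.eval (fun e => u e + s * v e) p =
      MvPolynomial.eval u p + s * l v + s ^ 2 * q.eval s := by
  induction p using MvPolynomial.induction_on with
  | C a => exact ⟨0, fun v => ⟨0, fun s => by simp⟩⟩
  | add p q a b =>
    obtain ⟨l, a⟩ := a
    obtain ⟨l', b⟩ := b
    refine ⟨l + l', fun v => ?_⟩
    obtain ⟨q1, a⟩ := a v
    obtain ⟨q2, b⟩ := b v
    exact ⟨q1 + q2, fun s => by simp only [map_add, a, b, LinearMap.add_apply, eval_add]; ring⟩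
  | mul_X p e a =>
    obtain ⟨l, a⟩ := a
    refine ⟨u e • l + MvPolynomial.eval u p • LinearMap.proj e, fun v => ?_⟩
    obtain ⟨q, a⟩ := a v
    refine ⟨C (l v * v e) + q * (C (u e) + X * C (v e)), fun s => ?_⟩
    simp only [map_mul, MvPolynomial.eval_X, a, LinearMap.add_apply, LinearMap.smul_apply,
      LinearMap.proj_apply, smul_eq_mul, eval_add, eval_mul, eval_C, eval_X]
    ring

variable [Infinite K]

theorem diff {I : Type} [DecidableEq I] (p : J → J → MvPolynomial (I × I) K) :
    ∃ D : Matrix I I K →ₗ[K] Matrix J J K, ∀ (X : Matrix I I K) (Y : Matrix J J K),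
      (∀ (s : K) a b, MvPolynomial.eval (fun e => (1 + s • X) e.1 e.2) (p a b) = (1 + s • Y) a b) →
      D X = Y := by
  choose l hl using fun a b => diff1 (p a b) fun e => (1 : Matrix I I K) e.1 e.2
  refine ⟨⟨⟨fun X => of fun a b => l a b fun e => X e.1 e.2, fun X Y => ?_⟩, fun c X => ?_⟩,
    fun X Y h => ?_⟩
  · ext a b; exact map_add (l a b) _ _
  · ext a b; exact map_smul (l a b) c _
  · ext a b
    obtain ⟨q, hq⟩ := hl a b fun e => X e.1 e.2
    have h0 := h 0 a b
    simp only [zero_smul, add_zero] at h0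
    have h1 : C (l a b fun e => X e.1 e.2) * Polynomial.X + Polynomial.X ^ 2 * q =
        C (Y a b) * Polynomial.X := Polynomial.funext fun s => by
      have := (hq s).symm.trans (h s a b)
      rw [h0, Matrix.add_apply, Matrix.smul_apply, smul_eq_mul] at this
      simp only [eval_add, eval_mul, eval_C, eval_X, eval_pow]
      linear_combination this
    have h2 := congrArg (·.coeff 1) h1
    simpa [coeff_X_pow_mul'] using h2

theorem sep {ι : Type} {ρ : (R → Kˣ) → Matrix J J K} {μ : R → ℤ} (S : Finset ι) (y : ι → R → ℤ)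
    (hy : ∀ i ∈ S, y i ≠ μ) : ∀ (u : ι → J → K) (v : J → K),
    (∀ i ∈ S, ∀ t, ρ t *ᵥ u i = ch (y i) t • u i) → (∀ t, ρ t *ᵥ v = ch μ t • v) →
    v = ∑ i ∈ S, u i → v = 0 := by
  classical
  induction S using Finset.induction_on with
  | empty => exact fun u v _ _ h => h
  | insert j S hj ih =>
    intro u v hu hv e
    obtain ⟨t, ht⟩ : ∃ t, (ch μ t : K) ≠ ch (y j) t := by_contra fun h => by
      push Not at h
      exact hy j (by simp) (ch_inj (MonoidHom.ext h)).symm
    refine (smul_eq_zero.1 (ih (fun i h => hy i (by simp [h]))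
      (fun i => (ch (y i) t - ch (y j) t : K) • u i) ((ch μ t - ch (y j) t : K) • v)
      (fun i h s => ?_) (fun s => ?_) ?_)).resolve_left (sub_ne_zero.2 ht)
    · rw [mulVec_smul, hu i (by simp [h]), smul_comm]
    · rw [mulVec_smul, hv, smul_comm]
    · rw [sub_smul, ← hv, e, mulVec_sum, Finset.smul_sum, ← Finset.sum_sub_distrib,
        Finset.sum_insert hj, hu j (by simp), sub_self, zero_add]
      exact Finset.sum_congr rfl fun i h => by rw [hu i (by simp [h]), sub_smul]

theorem str {ρ : (R → Kˣ) → Matrix J J K} {μ α : R → ℤ} {X : K → Matrix J J K}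
    (hp : ∀ a b, (fun s => X s a b) ∈ P1 K) (hc : ∀ t s, ρ t * X s = X (ch α t * s) * ρ t)
    {v : J → K} (hv : ∀ t, ρ t *ᵥ v = ch μ t • v) :
    ∃ q : J → K[X], (∀ s a, (X s *ᵥ v) a = (q a).eval s) ∧ ∀ (k : ℕ) t,
      (ρ t *ᵥ fun a => (q a).coeff k) = ch (μ + k • α) t • fun a => (q a).coeff k := by
  choose p hp using fun a b => mem_P1.1 (hp a b)
  obtain ⟨q, h1⟩ : ∃ q : J → K[X], ∀ s a, (X s *ᵥ v) a = (q a).eval s :=
    ⟨fun a => ∑ b, p a b * C (v b), fun s a => by simp [mulVec, dotProduct, eval_finset_sum, hp]⟩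
  refine ⟨q, h1, fun k t => funext fun a => ?_⟩
  have h2 : ∑ b, C (ρ t a b) * q b = C (ch μ t) * (q a).comp (C (ch α t) * Polynomial.X) :=
    Polynomial.funext fun s => by
      have := congrFun (congrArg (· *ᵥ v) (hc t s)) a
      simp only [← mulVec_mulVec, hv, mulVec_smul, Pi.smul_apply, smul_eq_mul] at this
      simp only [eval_finset_sum, eval_mul, eval_C, eval_comp, eval_X, ← h1]
      exact this
  have h3 := congrArg (·.coeff k) h2
  simp only [finset_sum_coeff, coeff_C_mul, comp_C_mul_X_coeff] at h3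
  rw [ch_add, ch_nsmul, Pi.smul_apply, smul_eq_mul]
  exact h3.trans (by ring)

theorem sat [CharZero K] {ρ : (R → Kˣ) → Matrix J J K} {μ α : R → ℤ} {X Y : K → Matrix J J K}
    (hp : ∀ a b, (fun s => X s a b) ∈ P1 K) (hq : ∀ a b, (fun s => Y s a b) ∈ P1 K)
    (hc : ∀ t s, ρ t * X s = X (ch α t * s) * ρ t)
    (hd : ∀ t s, ρ t * Y s = Y (ch (-α) t * s) * ρ t) (X0 : X 0 = 1) (Y0 : Y 0 = 1)
    (Ya : ∀ s t, Y (s + t) = Y s * Y t) {m : ℤ} (hm : 0 < m) (h0 : α ≠ 0)
    (hn : ∀ t, ∃ u, ρ t * (Y (-1) * X 1 * Y (-1)) = Y (-1) * X 1 * Y (-1) * ρ u ∧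
      ch μ u = ch (μ - m • α) t) (h : Wt ρ μ) : Wt ρ (μ - α) := by
  obtain ⟨v, v0, hv⟩ := h
  obtain ⟨q, q1, q2⟩ := str hq hd hv
  by_contra h1
  have h2 : ∀ a, (q a).coeff 1 = 0 := fun a => by_contra fun h2 =>
    h1 ⟨_, fun e => h2 (congrFun e a), fun t => by simpa [sub_eq_add_neg] using q2 1 t⟩
  have h3 : ∀ s, Y s *ᵥ v = v := fun s => funext fun a => by
    have h4 : derivative (q a) = 0 := Polynomial.funext fun s => by
      have h5 : taylor s (q a) = ∑ b, C (Y s a b) * q b := Polynomial.funext fun t => by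
        rw [taylor_eval, add_comm, ← q1, Ya, ← mulVec_mulVec]
        simp only [eval_finset_sum, eval_mul, eval_C, ← q1]
        rfl
      rw [← taylor_coeff_one, h5, finset_sum_coeff, eval_zero]
      exact Finset.sum_eq_zero fun b _ => by rw [coeff_C_mul, h2, mul_zero]
    have h5 := eq_C_of_natDegree_eq_zero (natDegree_eq_zero_of_derivative_eq_zero h4)
    have h6 := q1 0 a
    rw [Y0, one_mulVec, h5, eval_C] at h6
    rw [q1, h5, eval_C, h6]
  have hv' : ∀ t, ρ t *ᵥ ((Y (-1) * X 1 * Y (-1)) *ᵥ v) =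
      ch (μ - m • α) t • (Y (-1) * X 1 * Y (-1)) *ᵥ v := fun t => by
    obtain ⟨u, a, b⟩ := hn t
    rw [mulVec_mulVec, a, ← mulVec_mulVec, hv, mulVec_smul, b]
  obtain ⟨p, p1, p2⟩ := str hp hc hv
  obtain ⟨r, r1, r2⟩ := str hq hd hv'
  have e : X 1 *ᵥ v = Y 1 *ᵥ (Y (-1) * X 1 * Y (-1)) *ᵥ v := by
    rw [mulVec_mulVec, ← mul_assoc, ← mul_assoc, ← Ya, add_neg_cancel, Y0, one_mul,
      ← mulVec_mulVec, h3]
  obtain ⟨N, hN⟩ := (Set.finite_range fun a => max (p a).natDegree (r a).natDegree).bddAbove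
  have ne : ∀ k : ℤ, k ≠ 0 → μ + k • α ≠ μ := fun k hk e =>
    (smul_eq_zero.1 (add_eq_left.1 e)).elim hk h0
  refine v0 (sep ((Finset.range N).disjSum (Finset.range (N + 1)))
    (Sum.elim (fun k => μ + (k + 1) • α) fun k => μ - m • α + k • -α) ?_
    (Sum.elim (fun k => -fun a => (p a).coeff (k + 1)) fun k a => (r a).coeff k) v ?_ hv ?_)
  · rintro (k | k) -
    · exact fun e => ne (k + 1 : ℕ) (by omega) (by rw [natCast_zsmul]; exact e)
    · exact fun e => ne (-m - k) (by omega) (by
        refine Eq.trans ?_ e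
        simp only [Sum.elim_inr, sub_smul, neg_smul, natCast_zsmul, smul_neg]; abel)
  · rintro (k | k) - t
    · simp only [Sum.elim_inl, mulVec_neg, p2, smul_neg]
    · exact r2 k t
  · funext a
    have a1 := p1 0 a
    have a2 := congrFun e a
    have a3 := hN ⟨a, rfl⟩
    rw [X0, one_mulVec, ← coeff_zero_eq_eval_zero] at a1
    rw [p1, r1, eval_eq_sum_range' (n := N + 1) (by simp at a3; omega),
      eval_eq_sum_range' (n := N + 1) (by simp at a3; omega), Finset.sum_range_succ'] at a2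
    simp only [one_pow, mul_one] at a2
    simp only [Finset.sum_disjSum, Sum.elim_inl, Sum.elim_inr, Pi.add_apply, Finset.sum_apply,
      Pi.neg_apply, Finset.sum_neg_distrib]
    linear_combination a1 + a2

end Vale.Agent.P011LN
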