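import Vale.Agent.P011LN.Blk
import Vale.Agent.P011LN.Gen

/-!
The weights, the simple roots and the root elements of the split group of type `D₄`.
-/

set_option linter.all false

open Matrix

namespace Vale.Agent.P011LN

open Vale.Agent.P011L Vale.Agent.P011LT Vale.Agent.P011LA

/-- the weights of the second matrix -/
def wu (i k : Fin 3) (r : Fin 4) : ℤ :=
  if k = 0 then (if r = 3 then 1 else if r = i.castSucc then 0 else -1)
  else if r = i.castSucc then 1 else if r = 3 ∧ k = 1 then -1 else 0

/-- the weights -/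
def wt (p : I) (r : Fin 4) : ℤ :=
  if p.1 = 0 then (if r = p.2.1.castSucc then 1 else 0) - (if r = p.2.2.castSucc then 1 else 0)
  else if p.1 = 1 then wu p.2.1 p.2.2 r else -wu p.2.2 p.2.1 r

/-- the simple roots -/
def al (r s : Fin 4) : ℤ := if r = s then 2 else if r = 3 ∨ s = 3 then -1 else 0

/-- the position in the tables -/
def pos (r : Fin 4) (p : I) : ℕ := 27 * r + 9 * p.1 + 3 * p.2.1 + p.2.2

/-- decoding -/
def dec (n : ℕ) : I := (Fin.ofNat 3 (n / 9), Fin.ofNat 3 (n / 3), Fin.ofNat 3 n)

/-- the simple reflections -/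
def rf (r : Fin 4) (p : I) : I := dec (38604777759228601937682997215744949038886860520235324771942484688722867551179373433763843271865885323395760151678849260715279804303183694114099866669617856 / 27 ^ pos r p % 27)

/-- the signs -/
def cs (r : Fin 4) (p : I) : ℤ :=
  (1753202001003020758976073504207285947997118462430788 / 3 ^ pos r p % 3 : ℕ) - 1

/-- the coefficients of the raising operators -/
def ce (r : Fin 4) (q : I) : ℤ := if wt q r = -1 then cs r q else 0

/-- the coefficients of the lowering operators -/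
def cf (r : Fin 4) (q : I) : ℤ := if wt q r = 1 then cs r q else 0

/-- the signs of the reflections -/
def sn (r : Fin 4) (q : I) : ℤ := if wt q r = -1 then cs r q else if wt q r = 1 then -cs r q else 1

theorem wt_rf' : ∀ r p s, wt (rf r p) s = wt p s - wt p r * al r s := by decide +kernel

theorem wt_rf (r : Fin 4) (p : I) : wt (rf r p) = wt p - wt p r • al r := funext (wt_rf' r p)

theorem rf_rf : ∀ r p, rf r (rf r p) = p := by decide +kernel

theorem blk_rf : ∀ r p, blk (rf r p) = blk p := by decide +kernel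

theorem rf_ix : ∀ r i, rf r (ix i) = ix i ∧ sn r (ix i) = 1 ∧ ce r (ix i) = 0 ∧ cf r (ix i) = 0 := by
  decide +kernel

theorem sn_sq : ∀ r p, sn r p * sn r p = 1 := by decide +kernel

theorem wt_le : ∀ p r, -1 ≤ wt p r ∧ wt p r ≤ 1 := by decide +kernel

theorem wt_ix' : ∀ i r, wt (ix i) r = 0 := by decide +kernel

theorem wt_ix (i : Fin 3) : wt (ix i) = 0 := funext (wt_ix' i)

theorem wt_inj' : ∀ a b, (∀ r, wt a r = wt b r) → a = b ∨ blk a = 3 ∧ blk b = 3 := by decide +kernel

theorem wt_inj {a b : I} (h : wt a = wt b) : a = b ∨ blk a = 3 ∧ blk b = 3 :=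
  wt_inj' a b (congrFun h)

theorem al_self (r : Fin 4) : al r r = 2 := if_pos rfl

theorem al_ne (r : Fin 4) : al r ≠ 0 := fun h => by
  have := congrFun h r
  rw [al_self] at this
  exact two_ne_zero this

theorem up_iff {a b : I} {r : Fin 4} (h : wt a = wt b + al r) : wt b r = -1 ∧ a = rf r b := by
  have h1 := congrFun h r
  rw [Pi.add_apply, al_self] at h1
  have h2 : wt b r = -1 := by have := wt_le a r; have := wt_le b r; omega
  refine ⟨h2, (wt_inj (by rw [wt_rf, h2, h]; simp)).resolve_right fun h3 => ?_⟩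
  rw [blk3 a h3.1, wt_ix'] at h1
  omega

theorem sq_e : ∀ r b, ce r (rf r b) * ce r b = 0 ∧ cf r (rf r b) * cf r b = 0 := by decide +kernel

/-- a formal sum of three terms vanishes -/
abbrev Z3 (A B C : ℤ) (a b c : I) : Prop := A + B + C = 0 ∧ (A = 0 ∨ B = 0 ∨ a = b) ∧
  (A = 0 ∨ C = 0 ∨ a = c) ∧ (B = 0 ∨ C = 0 ∨ b = c)

theorem lie_of {f : I → I} {c : I → ℤ} (hf : ∀ p, f (f p) = p) {q t : I}
    (h : Z3 (c (f (th q t)) * sg q t) (c q * sg (f q) t) (c t * sg q (f t)) (f (th q t))
      (th (f q) t) (th q (f t))) (p : I) :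
    c p * n3 (f p) q t + c q * n3 p (f q) t + c t * n3 p q (f t) = 0 := by
  have e : c p * n3 (f p) q t = if p = f (th q t) then c (f (th q t)) * sg q t else 0 := by
    by_cases e : p = f (th q t)
    · rw [if_pos e, e, n3, hf, if_pos rfl]
    · rw [if_neg e, n3, if_neg fun a => e (by rw [← a, hf]), mul_zero]
  rw [e, n3, n3, mul_ite, mul_ite, mul_zero, mul_zero]
  generalize c (f (th q t)) * sg q t = A, c q * sg (f q) t = B, c t * sg q (f t) = C,
    f (th q t) = a, th (f q) t = b, th q (f t) = c at h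
  obtain ⟨h1, h2, h3, h4⟩ := h
  split_ifs with a1 a2 a3 a3 a2 a3 a3
  · exact h1
  · rcases h3 with h | h | h <;> rcases h4 with h' | h' | h' <;> first | omega | simp_all
  · rcases h2 with h | h | h <;> rcases h4 with h' | h' | h' <;> first | omega | simp_all
  · rcases h2 with h | h | h <;> rcases h3 with h' | h' | h' <;> first | omega | simp_all
  · rcases h2 with h | h | h <;> rcases h3 with h' | h' | h' <;> first | omega | simp_all
  · rcases h2 with h | h | h <;> rcases h4 with h' | h' | h' <;> first | omega | simp_all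
  · rcases h3 with h | h | h <;> rcases h4 with h' | h' | h' <;> first | omega | simp_all
  · rfl

theorem lie_e' : ∀ r q t, Z3 (ce r (rf r (th q t)) * sg q t) (ce r q * sg (rf r q) t)
    (ce r t * sg q (rf r t)) (rf r (th q t)) (th (rf r q) t) (th q (rf r t)) := by decide +kernel

theorem lie_f' : ∀ r q t, Z3 (cf r (rf r (th q t)) * sg q t) (cf r q * sg (rf r q) t)
    (cf r t * sg q (rf r t)) (rf r (th q t)) (th (rf r q) t) (th q (rf r t)) := by decide +kernel

theorem lie_e (r p q t) :
    ce r p * n3 (rf r p) q t + ce r q * n3 p (rf r q) t + ce r t * n3 p q (rf r t) = 0 :=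
  lie_of (rf_rf r) (lie_e' r q t) p

theorem lie_f (r p q t) :
    cf r p * n3 (rf r p) q t + cf r q * n3 p (rf r q) t + cf r t * n3 p q (rf r t) = 0 :=
  lie_of (rf_rf r) (lie_f' r q t) p

theorem cm_ef : ∀ r s, r ≠ s → ∀ b, ce r (rf s b) * cf s b = cf s (rf r b) * ce r b ∧
    (ce r (rf s b) * cf s b ≠ 0 → rf r (rf s b) = rf s (rf r b)) := by decide +kernel

theorem n_cert : ∀ r a b, (if a = b then 1 else 0) + (if a = rf r b then ce r b else 0) -
    2 * (if a = rf r b then cf r b else 0) - (if a = b then cf r (rf r b) * ce r b else 0) -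
    (if a = b then ce r (rf r b) * cf r b else 0) +
    (if a = rf r b then cf r (rf r (rf r b)) * (ce r (rf r b) * cf r b) else 0) =
    if a = rf r b then sn r b else 0 := by decide +kernel

theorem tor_cert : ∀ q r, sg q r ≠ 0 → ∀ s, wt (th q r) s + wt q s + wt r s = 0 := by
  decide +kernel

theorem ed_cert : ∀ r b, wt b r = -1 → cf r (rf r b) * ce r b = 1 := by decide +kernel

variable {K : Type} [Field K]

/-- monomial matrices -/
def mono (f : I → I) (c : I → ℤ) : Matrix I I K := of fun a b => ((if a = f b then c b else 0 : ℤ) : K)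

theorem mono_apply (f : I → I) (c : I → ℤ) (a b : I) :
    (mono f c : Matrix I I K) a b = ((if a = f b then c b else 0 : ℤ) : K) := rfl

theorem mono_ev (f : I → I) (c : I → ℤ) (q : I) :
    (mono f c : Matrix I I K) *ᵥ ev q = (c q : K) • ev (f q) := funext fun a => by
  rw [mulVec_ev, mono_apply, Pi.smul_apply, ev_apply]
  split_ifs <;> simp

theorem mul_mono (M : Matrix I I K) (f : I → I) (c : I → ℤ) (a b : I) :
    (M * mono f c : Matrix I I K) a b = M a (f b) * c b := by
  rw [← mulVec_ev (M * mono f c), ← mulVec_mulVec, mono_ev, mulVec_smul, Pi.smul_apply, mulVec_ev, smul_eq_mul,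
    mul_comm]

theorem mono_mul (f g : I → I) (c d : I → ℤ) : (mono f c * mono g d : Matrix I I K) =
    mono (fun b => f (g b)) fun b => c (g b) * d b := by
  ext a b
  rw [mul_mono, mono_apply, mono_apply]
  split_ifs <;> simp

theorem mono_zero {f : I → I} {c : I → ℤ} (h : ∀ b, c b = 0) : (mono f c : Matrix I I K) = 0 := by
  ext a b
  simp [mono_apply, h]

theorem mono_congr {f g : I → I} {c d : I → ℤ} (h : ∀ b, c b = d b ∧ (c b ≠ 0 → f b = g b)) :
    (mono f c : Matrix I I K) = mono g d := by
  ext a b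
  rw [mono_apply, mono_apply, ← (h b).1]
  by_cases e : c b = 0
  · simp [e]
  · rw [(h b).2 e]

theorem mono_sh {f : I → I} {c : I → ℤ} {γ : Fin 4 → ℤ} (h : ∀ b, c b ≠ 0 → wt (f b) = wt b + γ) :
    Sh wt γ (mono f c : Matrix I I K) := fun a b e => by
  rw [mono_apply] at e
  split_ifs at e with h1
  · exact h1 ▸ h b fun h2 => e (by rw [h2, Int.cast_zero])
  · exact absurd Int.cast_zero e

/-- the raising operators -/
def em (r : Fin 4) : Matrix I I K := mono (rf r) (ce r)

/-- the lowering operators -/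
def fm (r : Fin 4) : Matrix I I K := mono (rf r) (cf r)

/-- the reflections -/
def nm (r : Fin 4) : Matrix I I K := mono (rf r) (sn r)

theorem sh_em (r : Fin 4) : Sh wt (al r) (em r : Matrix I I K) := mono_sh fun b h => by
  rw [wt_rf, show wt b r = -1 from by_contra fun e => h (if_neg e)]; simp

theorem sh_fm (r : Fin 4) : Sh wt (-al r) (fm r : Matrix I I K) := mono_sh fun b h => by
  rw [wt_rf, show wt b r = 1 from by_contra fun e => h (if_neg e), one_smul, sub_eq_add_neg]

theorem em_fm {r s : Fin 4} (h : r ≠ s) : (em r * fm s : Matrix I I K) = fm s * em r := by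
  rw [em, fm, mono_mul, mono_mul]
  exact mono_congr (cm_ef r s h)

theorem ed_em (r : Fin 4) (a b : I) (h : wt a = wt b + al r) :
    (fm r : Matrix I I K) b a * em r a b = 1 := by
  obtain ⟨h1, rfl⟩ := up_iff h
  rw [fm, em, mono_apply, mono_apply, if_pos rfl, if_pos (rf_rf r b).symm, ← Int.cast_mul,
    ed_cert r b h1, Int.cast_one]

/-- nilpotent elements of the Lie algebra -/
structure Nl (X : Matrix I I K) : Prop where
  lie : Lie X
  sq : X * X = 0
  fx : ∀ i, X *ᵥ ev (ix i) = 0

theorem nl_mono {f : I → I} {c : I → ℤ} (h1 : ∀ p q t, c p * n3 (f p) q t + c q * n3 p (f q) t +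
    c t * n3 p q (f t) = 0) (h2 : ∀ b, c (f b) * c b = 0) (h3 : ∀ i, c (ix i) = 0) :
    Nl (mono f c : Matrix I I K) :=
  ⟨lie_of_ev fun p q t => by
    simp only [mono_ev, map_smul, LinearMap.smul_apply, tri_eee, smul_eq_mul]
    exact_mod_cast congrArg (Int.cast : ℤ → K) (h1 p q t),
    (mono_mul ..).trans (mono_zero h2), fun i => by rw [mono_ev, h3, Int.cast_zero, zero_smul]⟩

theorem nl_em (r : Fin 4) : Nl (em r : Matrix I I K) :=
  nl_mono (lie_e r) (fun b => (sq_e r b).1) fun i => (rf_ix r i).2.2.1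

theorem nl_fm (r : Fin 4) : Nl (fm r : Matrix I I K) :=
  nl_mono (lie_f r) (fun b => (sq_e r b).2) fun i => (rf_ix r i).2.2.2

theorem nm_eq (r : Fin 4) : (1 + (-1 : K) • fm r) * (1 + (1 : K) • em r) * (1 + (-1 : K) • fm r) =
    (nm r : Matrix I I K) := by
  have h : (1 + (-1 : K) • fm r) * (1 + (1 : K) • em r) * (1 + (-1 : K) • fm r) =
      (1 + em r - (fm r + fm r) - fm r * em r - em r * fm r + fm r * (em r * fm r) : Matrix I I K) +
        fm r * fm r := by
    rw [neg_one_smul, one_smul]; noncomm_ring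
  rw [h, (nl_fm r).sq, add_zero]
  ext a b
  simp only [em, fm, nm, mono_mul, Matrix.add_apply, Matrix.sub_apply, mono_apply, one_apply, rf_rf,
    ← n_cert r a b]
  push_cast
  ring

end Vale.Agent.P011LN
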