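import Vale.Agent.P011LN.Dat

/-!
The torus, the root subgroups and the centre of the split group of type `D₄`.
-/

set_option linter.all false

open Matrix

namespace Vale.Agent.P011LN

open Vale.Agent.P011L Vale.Agent.P011LT Vale.Agent.P011LA

variable {K : Type} [Field K] [CharZero K]

theorem sd_inv (g : SD K) : Inv g.1.1 := inv_of_SE (SD_le g.2)

theorem sd_fx (g : SD K) : Fx g.1.1 := (mem_SD.1 g.2).2

theorem sd_bd (g : SD K) : Bd g.1.1 := bd_of (sd_inv g) (sd_fx g) g.1.mul_inv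

/-- elements of the group -/
noncomputable def mk {M M' : Matrix I I K} (e : M * M' = 1) (h : Inv M) (hf : Fx M) : SD K :=
  ⟨⟨M, M', e, mul_eq_one_comm.1 e⟩, mem_SD.2 ⟨SE_of_inv h, hf⟩⟩

theorem sd_ext {g h : SD K} (e : g.1.1 = h.1.1) : g = h := Subtype.ext (Units.ext e)

theorem Nl.add {X : Matrix I I K} (h : Nl X) (s t : K) :
    (1 + s • X) * (1 + t • X) = 1 + (s + t) • X := by
  rw [add_mul, mul_add, mul_add, one_mul, one_mul, mul_one, smul_mul_smul_comm, h.sq, smul_zero,
    add_zero, add_smul, add_assoc, add_comm (t • X)]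

/-- the one-parameter subgroups -/
noncomputable def ux {X : Matrix I I K} (h : Nl X) (s : K) : SD K :=
  mk (M' := 1 + (-s) • X) (by rw [h.add, add_neg_cancel, zero_smul, add_zero]) (h.lie.inv h.sq s)
    fun i => by rw [add_mulVec, one_mulVec, smul_mulVec, h.fx, smul_zero, add_zero]

theorem ux_val {X : Matrix I I K} (h : Nl X) (s : K) : (ux h s).1.1 = 1 + s • X := rfl

theorem ux_add {X : Matrix I I K} (h : Nl X) (s t : K) : ux h (s + t) = ux h s * ux h t :=
  sd_ext (h.add s t).symm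

theorem ux_zero {X : Matrix I I K} (h : Nl X) : ux h 0 = 1 :=
  sd_ext (by rw [ux_val, zero_smul, add_zero]; rfl)

theorem Nl.conj {X : Matrix I I K} (h : Nl X) (g : SD K) : Nl (g.1.1 * X * (g⁻¹).1.1) :=
  ⟨h.lie.conj (sd_inv g) g.1.mul_inv, by
    rw [mul_assoc, ← mul_assoc (g⁻¹).1.1, ← mul_assoc (g⁻¹).1.1, show (g⁻¹).1.1 * g.1.1 = 1 from
      g.1.inv_mul, one_mul, ← mul_assoc, mul_assoc _ X X, h.sq, mul_zero, zero_mul], fun i => by
    rw [← mulVec_mulVec, ← mulVec_mulVec, sd_fx, h.fx, mulVec_zero]⟩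

theorem ux_conj {X : Matrix I I K} (h : Nl X) (g : SD K) (s : K) :
    ux (h.conj g) s = g * ux h s * g⁻¹ := sd_ext (by
  show _ = g.1.1 * (1 + s • X) * (g⁻¹).1.1
  rw [ux_val, mul_add, add_mul, mul_one, show g.1.1 * (g⁻¹).1.1 = 1 from g.1.mul_inv, mul_smul_comm,
    smul_mul_assoc])

omit [CharZero K] in
theorem diag_ev (d : I → K) (p : I) : diagonal d *ᵥ ev p = d p • ev p := funext fun a => by
  rw [mulVec_diagonal, Pi.smul_apply, ev_apply]
  split_ifs with h
  · rw [h]; rfl
  · simp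

omit [CharZero K] in
theorem inv_diag {d : I → K} (h : ∀ q r, sg q r ≠ 0 → d (th q r) * d q * d r = 1) :
    Inv (diagonal d) := inv_of_ev fun p q r => by
  simp only [diag_ev, map_smul, LinearMap.smul_apply, smul_eq_mul, tri_eee, n3]
  split_ifs with e
  · by_cases a : sg q r = 0
    · simp [a]
    · rw [e]; linear_combination (sg q r : K) * h q r a
  · simp

/-- the torus, as matrices -/
def dg (t : Fin 4 → Kˣ) : Matrix I I K := diagonal fun a => ch (wt a) t

omit [CharZero K] in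
theorem dg_mul (t u : Fin 4 → Kˣ) : (dg (t * u) : Matrix I I K) = dg t * dg u := by
  simp only [dg, diagonal_mul_diagonal, map_mul]

omit [CharZero K] in
theorem dg_one : (dg 1 : Matrix I I K) = 1 := by simp only [dg, map_one, diagonal_one]

/-- the torus -/
noncomputable def tau : (Fin 4 → Kˣ) →* SD K := MonoidHom.mk'
  (fun t => mk (M := dg t) (M' := dg t⁻¹) (by rw [← dg_mul, mul_inv_cancel, dg_one])
    (inv_diag fun q r h => by
      rw [← ch_add, ← ch_add, show wt (th q r) + wt q + wt r = 0 from funext (tor_cert q r h), ch_zero])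
    fun i => by rw [dg, diag_ev, wt_ix, ch_zero, one_smul])
  fun t u => sd_ext (dg_mul t u)

theorem tau_val (t : Fin 4 → Kˣ) : (tau t : SD K).1.1 = dg t := rfl

omit [CharZero K] in
theorem Sh.dg {γ : Fin 4 → ℤ} {X : Matrix I I K} (h : Sh wt γ X) (t : Fin 4 → Kˣ) :
    dg t * X = ch γ t • (X * dg t) := by
  ext a b
  rw [P011LN.dg, diagonal_mul, Matrix.smul_apply, mul_diagonal, smul_eq_mul]
  by_cases e : X a b = 0
  · simp [e]
  · rw [h a b e, ch_add]; ring

theorem tau_ux {γ : Fin 4 → ℤ} {X : Matrix I I K} (h : Nl X) (hs : Sh wt γ X) (t : Fin 4 → Kˣ)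
    (s : K) : tau t * ux h s = ux h (ch γ t * s) * tau t := sd_ext (by
  show dg t * (1 + s • X) = (1 + (ch γ t * s) • X) * dg t
  rw [mul_add, add_mul, mul_one, one_mul, mul_smul_comm, hs.dg, smul_smul, smul_mul_assoc,
    mul_comm s])

/-- the lifts of the simple reflections -/
noncomputable def nn (r : Fin 4) : SD K := ux (nl_fm r) (-1) * ux (nl_em r) 1 * ux (nl_fm r) (-1)

theorem nn_val (r : Fin 4) : (nn r : SD K).1.1 = nm r := nm_eq r

omit [CharZero K] in
theorem ch_zsmul {R : Type} [Fintype R] (m : ℤ) (y : R → ℤ) (t : R → Kˣ) :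
    ch (m • y) t = (ch y t : K) ^ m := by
  simp only [ch_apply, Pi.smul_apply, smul_eq_mul, mul_comm m, zpow_mul, Finset.prod_zpow]

omit [CharZero K] in
theorem ch_single {R : Type} [Fintype R] [DecidableEq R] (y : R → ℤ) (r : R) (c : Kˣ) :
    ch y (Pi.mulSingle r c) = (c : K) ^ y r := by
  rw [ch_apply, Finset.prod_eq_single r (fun q _ a => by simp [Pi.mulSingle_eq_of_ne a]) (by simp),
    Pi.mulSingle_eq_same]

omit [CharZero K] in
theorem exists_refl (r : Fin 4) (t : Fin 4 → Kˣ) :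
    ∃ u : Fin 4 → Kˣ, ∀ μ, (ch μ u : K) = ch (μ - μ r • al r) t :=
  ⟨t * Pi.mulSingle r (Units.mk0 _ (ch_ne (al r) t))⁻¹, fun μ => by
    rw [map_mul, ch_single, ch_sub, ch_zsmul, Units.val_inv_eq_inv_val, Units.val_mk0, inv_zpow,
      div_eq_mul_inv]⟩

theorem tau_nn (r : Fin 4) (t : Fin 4 → Kˣ) : ∃ u : Fin 4 → Kˣ,
    (tau t * nn r : SD K) = nn r * tau u ∧ ∀ μ, (ch μ u : K) = ch (μ - μ r • al r) t := by
  obtain ⟨u, hu⟩ := exists_refl r t
  refine ⟨u, sd_ext ?_, hu⟩
  show dg t * (nn r).1.1 = (nn r).1.1 * dg u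
  ext a b
  rw [nn_val, dg, dg, diagonal_mul, mul_diagonal, hu, ← wt_rf, nm, mono_apply]
  split_ifs with e
  · rw [e, mul_comm]
  · simp

/-- the signs of the central elements -/
def zs (i : Fin 3) (j : Fin 4) : ℤ := if j = 3 ∨ j = i.castSucc then 1 else -1

/-- the parity of a weight -/
def od (i : Fin 3) (y : Fin 4 → ℤ) : ℤ := y (i + 1).castSucc + y (i + 2).castSucc

/-- the central elements -/
noncomputable def zt (K : Type) [Field K] (i : Fin 3) : Fin 4 → Kˣ :=
  Pi.mulSingle (i + 1).castSucc (-1) * Pi.mulSingle (i + 2).castSucc (-1)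

theorem ch_zt (i : Fin 3) (y : Fin 4 → ℤ) :
    ch y (zt K i) = if Even (od i y) then 1 else -1 := by
  rw [zt, map_mul, ch_single, ch_single, Units.val_neg, Units.val_one, ← zpow_add₀ (by norm_num),
    ← od, neg_one_zpow_eq_ite]

theorem zs_cert : ∀ i p, (if Even (od i (wt p)) then 1 else -1) = zs i (blk p) := by decide +kernel

theorem dg_zt (i : Fin 3) : dg (zt K i) = diagonal fun p => (zs i (blk p) : K) := by
  rw [dg]
  congr 1
  funext p
  rw [ch_zt, ← zs_cert]
  split_ifs <;> simp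

theorem zt_comm (i : Fin 3) (g : SD K) : g * tau (zt K i) = tau (zt K i) * g := sd_ext (by
  show g.1.1 * dg _ = dg _ * g.1.1
  rw [dg_zt]
  exact (sd_bd g).comm fun j => (zs i j : K))

/-- the action of the words -/
def act (l : List (Fin 4)) (p : I) : I := l.foldr rf p

theorem act_ind {n : Type} {P : (n → I) → Prop} (h : ∀ r v, P v → P fun i => rf r (v i))
    (l : List (Fin 4)) {v : n → I} (hv : P v) : P fun i => act l (v i) := by
  induction l with
  | nil => exact hv
  | cons r l ih => exact h r _ ih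

theorem top_cert : ∀ (j : Fin 3) (p : I), blk p = j.castSucc → ∃ l ∈ [[], [0], [3, 0], [1, 3, 0],
    [2, 3, 0], [2, 1, 3, 0], [3, 2, 1, 3, 0], [0, 3, 2, 1, 3, 0], [1], [3, 1], [0, 3, 1], [2, 3, 1],
    [2, 0, 3, 1], [3, 2, 0, 3, 1], [1, 3, 2, 0, 3, 1], [2], [3, 2], [0, 3, 2], [1, 3, 2],
    [1, 0, 3, 2], [3, 1, 0, 3, 2], [2, 3, 1, 0, 3, 2]], act l (1, j, 2) = p := by decide +kernel

theorem act_iff {P : I → Prop} (h : ∀ r p, P p → P (rf r p)) (l : List (Fin 4)) (p : I) :
    P (act l p) ↔ P p := by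
  induction l with
  | nil => rfl
  | cons r l ih => exact ⟨fun a => ih.1 (rf_rf r (act l p) ▸ h r _ a), fun a => h r _ (ih.2 a)⟩

theorem blk_cases {p : I} (h : blk p ≠ 3) : ∃ j : Fin 3, blk p = j.castSucc :=
  (Fin.eq_castSucc_or_eq_last (blk p)).resolve_right h

theorem blk_trans {P : I → Prop} (h : ∀ r p, P p → P (rf r p)) {p q : I} (h3 : blk p ≠ 3)
    (e : blk q = blk p) (hp : P p) : P q := by
  obtain ⟨j, hj⟩ := blk_cases h3
  obtain ⟨l, -, rfl⟩ := top_cert j p hj
  obtain ⟨l', -, rfl⟩ := top_cert j q (e.trans hj)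
  exact (act_iff h l' _).2 ((act_iff h l _).1 hp)

theorem com_cert : ∀ r p, rf r p = p ∨ ce r p ≠ 0 ∨ cf r p ≠ 0 := by decide +kernel

theorem ef_cert : ∀ r b, ce r (rf r b) * cf r b - cf r (rf r b) * ce r b = wt b r := by
  decide +kernel

omit [CharZero K] in
theorem ef_eq (r : Fin 4) :
    (em r * fm r - fm r * em r : Matrix I I K) = diagonal fun b => (wt b r : K) := by
  ext a b
  simp only [em, fm, mono_mul, Matrix.sub_apply, mono_apply, rf_rf, diagonal_apply]
  split_ifs with e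
  · rw [e, ← ef_cert, Int.cast_sub]
  · simp

/-- the commutant -/
theorem commutant {U : Matrix I I K} (hf : Fx U) (he : ∀ r, U * em r = em r * U)
    (hf' : ∀ r, U * fm r = fm r * U) :
    ∃ c : Fin 4 → K, c 3 = 1 ∧ U = diagonal fun p => c (blk p) := by
  have h1 : ∀ a b, a ≠ b → U a b = 0 := fun a b e => by
    by_contra h
    have h2 : wt a = wt b := funext fun r => by
      have : U * (em r * fm r - fm r * em r) = (em r * fm r - fm r * em r) * U := by
        rw [mul_sub, sub_mul, ← mul_assoc, he, mul_assoc, hf', ← mul_assoc (U), hf', mul_assoc, he,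
          mul_assoc, mul_assoc]
      have := congrFun (congrFun this a) b
      rw [ef_eq, mul_diagonal, diagonal_mul, mul_comm] at this
      exact_mod_cast (mul_right_cancel₀ h this).symm
    exact h (by rw [hf.col ((wt_inj h2).resolve_left e).2, one_apply_ne e])
  have h2 : U = diagonal fun p => U p p := by
    ext a b
    by_cases e : a = b
    · rw [e, diagonal_apply_eq]
    · rw [h1 a b e, diagonal_apply_ne _ e]
  have h3 : ∀ (c : I → ℤ) r p, U * mono (rf r) c = mono (rf r) c * U → c p ≠ 0 →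
      U (rf r p) (rf r p) = U p p := fun c r p e h => by
    have := congrFun (congrFun e (rf r p)) p
    rw [mul_mono, h2, mul_diagonal, mono_apply, if_pos rfl, ← h2, mul_comm] at this
    exact mul_left_cancel₀ (Int.cast_ne_zero.2 h) this
  have h4 : ∀ r p, U (rf r p) (rf r p) = U p p := fun r p =>
    (com_cert r p).elim (fun e => by rw [e]) fun e => e.elim (h3 _ r p (he r)) (h3 _ r p (hf' r))
  refine ⟨fun j => if j = 3 then 1 else U (1, Fin.ofNat 3 j, 2) (1, Fin.ofNat 3 j, 2), rfl,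
    h2.trans (congrArg diagonal (funext fun p => ?_))⟩
  dsimp only
  split_ifs with e
  · rw [hf.col e, one_apply_eq]
  · exact blk_trans (P := fun q => U p p = U q q) (fun r q a => a.trans (h4 r q).symm) e
      ((by decide : ∀ j : Fin 4, j ≠ 3 → blk (1, Fin.ofNat 3 j, 2) = j) _ e) rfl

end Vale.Agent.P011LN
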