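import Vale.Agent.P011LN.Grp

/-!
The Lie algebra of the split group of type `D₄` is spanned by the conjugates of the root elements.
-/

set_option linter.all false

open Matrix

namespace Vale.Agent.P011LN

open Vale.Agent.P011L Vale.Agent.P011LT Vale.Agent.P011LA

variable {K : Type} [Field K] [CharZero K]

/-- the Lie algebra -/
def LL (K : Type) [Field K] : Submodule K (Matrix I I K) where
  carrier := {X | Lie X ∧ Bd X ∧ ∀ i, X *ᵥ ev (ix i) = 0}
  add_mem' := fun {X Y} a b => ⟨fun x y z => by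
      simp only [add_mulVec, map_add, LinearMap.add_apply]
      linear_combination a.1 x y z + b.1 x y z,
    fun p q h => by rw [Matrix.add_apply, a.2.1 p q h, b.2.1 p q h, add_zero],
    fun i => by rw [add_mulVec, a.2.2, b.2.2, add_zero]⟩
  zero_mem' := ⟨fun x y z => by simp, fun _ _ _ => rfl, fun _ => zero_mulVec _⟩
  smul_mem' := fun c X a => ⟨fun x y z => by
      simp only [smul_mulVec, map_smul, LinearMap.smul_apply, smul_eq_mul]
      linear_combination c * a.1 x y z,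
    fun p q h => by rw [Matrix.smul_apply, a.2.1 p q h, smul_zero],
    fun i => by rw [smul_mulVec, a.2.2, smul_zero]⟩

theorem Nl.mem {X : Matrix I I K} (h : Nl X) : X ∈ LL K := ⟨h.lie, fun a b e => by
  have := sd_bd (ux h 1) a b e
  rwa [ux_val, one_smul, Matrix.add_apply, one_apply_ne fun a => e (congrArg blk a), zero_add] at this,
  h.fx⟩

omit [CharZero K] in
theorem Lie.eqn {X : Matrix I I K} (h : Lie X) (p q r : I) :
    sg q r * X (th q r) p + sg p r * X (th p r) q + sg p q * X (th p q) r = 0 := by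
  have := h (ev p) (ev q) (ev r)
  rwa [tri23 _ _ (X *ᵥ _), tri12 _ (X *ᵥ _), tri12 _ (X *ᵥ _), tri_ee, tri_ee, tri_ee, mulVec_ev,
    mulVec_ev, mulVec_ev] at this

/-- the opposite index -/
def bar (p : I) : I := th (ix (Fin.ofNat 3 (blk p))) p

theorem bar_cert : ∀ p, bar (bar p) = p ∧ blk (bar p) = blk p ∧
    (blk p ≠ 3 → sg (ix (Fin.ofNat 3 (blk p))) p = -1) := by decide +kernel

theorem bar_rf : ∀ r p, bar (rf r p) = rf r (bar p) ∧ sn r (bar p) = sn r p := by decide +kernel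

theorem skew {X : Matrix I I K} (h : X ∈ LL K) {c d : I} (e : blk c = blk d) (h3 : blk d ≠ 3) :
    X c d = -X (bar d) (bar c) := by
  have a := h.1.eqn (ix (Fin.ofNat 3 (blk d))) d (bar c)
  have b := (bar_cert (bar c)).2.2
  have b' : th (ix (Fin.ofNat 3 (blk d))) (bar c) = c := by
    rw [← e, ← (bar_cert c).2.1]; exact (bar_cert c).1
  rw [(bar_cert c).2.1, e] at b
  rw [← mulVec_ev X, h.2.2, b h3, (bar_cert d).2.2 h3, b', ← bar] at a
  simp only [Pi.zero_apply, Int.cast_neg, Int.cast_one] at a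
  linear_combination -a

theorem off_cert : ∀ p p', blk p = blk p' → blk p ≠ 0 → blk p ≠ 3 → p ≠ p' →
    ∃ a, blk a = 0 ∧ sg a p' = 0 ∧ sg a (th a p) ≠ 0 ∧ th a (th a p) = p := by decide +kernel

theorem th_cert : ∀ p r, sg p r ≠ 0 → sg (th p r) p = sg p r ∧ sg (th p r) r = sg p r ∧
    th (th p r) p = r ∧ th (th p r) r = p := by decide +kernel

/-- the two indices are linked by an index of the first block -/
abbrev cn (p r : I) : Prop := sg p r ≠ 0 ∧ blk (th p r) = 0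

theorem cn_cert : ∀ p, blk p ≠ 0 → blk p ≠ 3 →
    ∃ r, cn p r ∧ ∃ q, cn r q ∧ ∃ s, cn q s ∧ cn s (bar p) := by decide +kernel

theorem inj0 {X : Matrix I I K} (h : X ∈ LL K) (h0 : ∀ a b, blk a = 0 → blk b = 0 → X a b = 0) :
    X = 0 := by
  have z : ∀ a b, blk b = 0 → X a b = 0 := fun a b e => by
    by_cases e' : blk a = 0
    · exact h0 a b e' e
    · exact h.2.1 a b (e ▸ e')
  have c : ∀ p r, cn p r → X p p = -X r r := fun p r e => by
    have a := h.1.eqn (th p r) p r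
    obtain ⟨a1, a2, a3, a4⟩ := th_cert p r e.1
    rw [z _ _ e.2, a1, a2, a3, a4] at a
    exact mul_left_cancel₀ (Int.cast_ne_zero.2 e.1 : (sg p r : K) ≠ 0) (by linear_combination a)
  ext p q
  rw [Matrix.zero_apply]
  by_cases e : blk p = blk q
  swap
  · exact h.2.1 p q e
  by_cases e0 : blk q = 0
  · exact z p q e0
  by_cases e3 : blk q = 3
  · rw [blk3 q e3, ← mulVec_ev X, h.2.2, Pi.zero_apply]
  by_cases e1 : p = q
  · subst e1
    obtain ⟨r, a1, q, a2, s, a3, a4⟩ := cn_cert p e0 e3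
    linear_combination (c _ _ a1 - c _ _ a2 + c _ _ a3 - c _ _ a4 + skew h e e3) / 2
  · obtain ⟨a, a1, a2, a3, a4⟩ := off_cert p q e (e ▸ e0) (e ▸ e3) e1
    have b := h.1.eqn a q (th a p)
    rw [z _ _ a1, a2, a4, mul_zero, zero_add, Int.cast_zero, zero_mul, add_zero] at b
    exact (mul_eq_zero.1 b).resolve_left (Int.cast_ne_zero.2 a3)

/-- the span of the conjugates of the root elements -/
def L0 (E : Subgroup (SD K)) : Submodule K (Matrix I I K) :=
  Submodule.span K {Y | ∃ g ∈ E, ∃ r, Y = g.1.1 * em r * (g⁻¹).1.1 ∨ Y = g.1.1 * fm r * (g⁻¹).1.1}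

theorem L0_le (E : Subgroup (SD K)) : L0 E ≤ LL K := Submodule.span_le.2 (by
  rintro _ ⟨g, -, r, rfl | rfl⟩
  exacts [((nl_em r).conj g).mem, ((nl_fm r).conj g).mem])

theorem L0_conj {E : Subgroup (SD K)} {g : SD K} (hg : g ∈ E) {Y : Matrix I I K} (h : Y ∈ L0 E) :
    g.1.1 * Y * (g⁻¹).1.1 ∈ L0 E := by
  have e : ∀ (x : SD K) (X : Matrix I I K), g.1.1 * (x.1.1 * X * (x⁻¹).1.1) * (g⁻¹).1.1 =
      (g * x).1.1 * X * ((g * x)⁻¹).1.1 := fun x X => by
    rw [_root_.mul_inv_rev]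
    show _ = g.1.1 * x.1.1 * X * ((x⁻¹).1.1 * (g⁻¹).1.1)
    simp only [mul_assoc]
  induction h using Submodule.span_induction with
  | mem _ h =>
    obtain ⟨x, hx, r, rfl | rfl⟩ := h
    exacts [Submodule.subset_span ⟨g * x, mul_mem hg hx, r, .inl (e ..)⟩,
      Submodule.subset_span ⟨g * x, mul_mem hg hx, r, .inr (e ..)⟩]
  | zero => rw [mul_zero, zero_mul]; exact zero_mem _
  | add _ _ _ _ a b => rw [mul_add, add_mul]; exact add_mem a b
  | smul c _ _ a => rw [mul_smul_comm, smul_mul_assoc]; exact Submodule.smul_mem _ c a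

/-- the standard basis of the orthogonal Lie algebra -/
def Fo (a b c d : I) : ℤ :=
  (if c = a ∧ d = b then 1 else 0) - if c = bar b ∧ d = bar a then 1 else 0

theorem rf_iff {r : Fin 4} {a c : I} : rf r c = a ↔ c = rf r a :=
  ⟨fun h => by rw [← h, rf_rf], fun h => by rw [h, rf_rf]⟩

theorem Fo_rf (r : Fin 4) (a b c d : I) : sn r a * sn r b * (sn r (rf r d) * (sn r (rf r c) *
    Fo a b (rf r c) (rf r d))) = Fo (rf r a) (rf r b) c d := by
  simp only [Fo, (bar_rf r _).1, ← rf_iff, mul_sub]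
  congr 1 <;> split_ifs with h
  · rw [h.1, h.2]; linear_combination (sn r b * sn r b) * sn_sq r a + sn_sq r b
  · simp
  · rw [h.1, h.2, (bar_rf r _).2, (bar_rf r _).2]
    linear_combination (sn r b * sn r b) * sn_sq r a + sn_sq r b
  · simp

omit [CharZero K] in
theorem nm_mul (r : Fin 4) (M : Matrix I I K) (a b : I) :
    (nm r * M : Matrix I I K) a b = sn r (rf r a) * M (rf r a) b := by
  rw [mul_one_term (c := rf r a) fun d h _ => by_contra fun e => h (by
    rw [nm, mono_apply, if_neg fun x => e (rf_iff.1 x.symm), Int.cast_zero]), nm, mono_apply,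
    if_pos (rf_rf r a).symm]

/-- the basis element is reached -/
def Pf (E : Subgroup (SD K)) (a b : I) : Prop :=
  ∃ Y ∈ L0 E, ∀ c d, blk c = 0 → blk d = 0 → Y c d = Fo a b c d

theorem Pf.step {E : Subgroup (SD K)} {r : Fin 4} (hn : nn r ∈ E) {a b : I} (h : Pf E a b) :
    Pf E (rf r a) (rf r b) := by
  obtain ⟨Y, h1, h2⟩ := h
  refine ⟨((sn r a * sn r b : ℤ) : K) • _, Submodule.smul_mem _ _ (L0_conj hn h1), fun c d hc hd => ?_⟩
  have e : (nn r).1.1 * Y * ((nn r)⁻¹ : SD K).1.1 * nm r = nm r * Y := by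
    rw [mul_assoc, ← nn_val, show ((nn r)⁻¹ : SD K).1.1 * (nn r).1.1 = 1 from (nn r).1.inv_mul, mul_one]
  have e1 := congrFun (congrFun e c) (rf r d)
  rw [nm_mul, nm, mul_mono, rf_rf, h2 _ _ (by rw [blk_rf, hc]) (by rw [blk_rf, hd])] at e1
  have e2 : ((sn r (rf r d) * sn r (rf r d) : ℤ) : K) = 1 := by rw [sn_sq, Int.cast_one]
  rw [Matrix.smul_apply, smul_eq_mul, ← Fo_rf]
  generalize (nn r).1.1 * Y * ((nn r)⁻¹ : SD K).1.1 = y at e1 ⊢
  push_cast at e2 ⊢
  linear_combination (sn r a * sn r b * sn r (rf r d)) * e1 - (sn r a * sn r b * y c d) * e2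

/-- the words for the pairs -/
def W48 : List (List (Fin 4)) :=
  [[], [0], [3], [3, 0], [0, 3], [1, 3], [2, 3], [0, 3, 0], [1, 3, 0], [2, 3, 0], [1, 0, 3], [2,
    0, 3], [2, 1, 3], [1, 0, 3, 0], [2, 0, 3, 0], [2, 1, 3, 0], [2, 1, 0, 3], [3, 1, 0, 3], [3,
    2, 0, 3], [3, 2, 1, 3], [2, 1, 0, 3, 0], [3, 1, 0, 3, 0], [3, 2, 0, 3, 0], [3, 2, 1, 3, 0],
    [3, 2, 1, 0, 3], [2, 3, 1, 0, 3], [1, 3, 2, 0, 3], [0, 3, 2, 1, 3], [3, 2, 1, 0, 3, 0], [2,
    3, 1, 0, 3, 0], [1, 3, 2, 0, 3, 0], [0, 3, 2, 1, 3, 0], [0, 3, 2, 1, 0, 3], [1, 3, 2, 1, 0,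
    3], [2, 3, 2, 1, 0, 3], [0, 3, 2, 1, 0, 3, 0], [1, 3, 2, 1, 0, 3, 0], [2, 3, 2, 1, 0, 3, 0],
    [1, 0, 3, 2, 1, 0, 3], [2, 0, 3, 2, 1, 0, 3], [2, 1, 3, 2, 1, 0, 3], [1, 0, 3, 2, 1, 0, 3,
    0], [2, 0, 3, 2, 1, 0, 3, 0], [2, 1, 3, 2, 1, 0, 3, 0], [2, 1, 0, 3, 2, 1, 0, 3], [2, 1, 0,
    3, 2, 1, 0, 3, 0], [3, 2, 1, 0, 3, 2, 1, 0, 3], [3, 2, 1, 0, 3, 2, 1, 0, 3, 0]]

theorem pair_cert : ∀ a, blk a = 0 → ∀ b, blk b = 0 → a = bar b ∨ a = b ∨
    ∃ l ∈ W48, act l (1, 0, 2) = a ∧ act l (2, 1, 0) = b := by decide +kernel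

theorem base_cert : ∀ c, blk c = 0 → ∀ d, blk d = 0 →
    (if c = rf 0 d then ce 0 d else 0) = Fo (1, 0, 2) (2, 1, 0) c d ∧
    (if c = d then 2 * wt c 0 + 2 * wt c 3 + wt c 1 + wt c 2 else 0) =
      2 * Fo (1, 0, 2) (1, 0, 2) c d := by decide +kernel

theorem lie_span {E : Subgroup (SD K)} (he : ∀ r s, ux (nl_em r) s ∈ E)
    (hf : ∀ r s, ux (nl_fm r) s ∈ E) {X : Matrix I I K} (hX : X ∈ LL K) : X ∈ L0 E := by
  have hn : ∀ r, nn r ∈ E := fun r => mul_mem (mul_mem (hf r _) (he r _)) (hf r _)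
  have h1 : ∀ r, diagonal (fun b => (wt b r : K)) ∈ L0 E := fun r => by
    have a := sub_mem (Submodule.subset_span ⟨_, he r 1, r, .inr rfl⟩ : _ ∈ L0 E)
      (Submodule.subset_span ⟨_, he r (-1), r, .inr rfl⟩ : _ ∈ L0 E)
    have b : (1 + (1 : K) • em r) * fm r * (1 + (-1 : K) • em r) - (1 + (-1 : K) • em r) * fm r *
        (1 + (- -1 : K) • em r) = ((2 : K) • (em r * fm r - fm r * em r) : Matrix I I K) := by
      rw [neg_neg, one_smul, neg_one_smul, two_smul]; noncomm_ring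
    rw [← ef_eq]
    exact (Submodule.smul_mem_iff _ two_ne_zero).1 (b ▸ a)
  have h2 : Pf E (1, 0, 2) (2, 1, 0) := ⟨em 0, Submodule.subset_span ⟨1, one_mem _, 0, .inl (by simp)⟩,
    fun c d hc hd => by rw [em, mono_apply, (base_cert c hc d hd).1]⟩
  have h3 : Pf E (1, 0, 2) (1, 0, 2) := ⟨_, Submodule.smul_mem _ (2⁻¹ : K) (add_mem (add_mem (add_mem
    (Submodule.smul_mem _ 2 (h1 0)) (Submodule.smul_mem _ 2 (h1 3))) (h1 1)) (h1 2)),
    fun c d hc hd => by
      have a := congrArg (Int.cast : ℤ → K) (base_cert c hc d hd).2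
      simp only [Matrix.smul_apply, Matrix.add_apply, diagonal_apply, smul_eq_mul]
      split_ifs at a ⊢ <;> push_cast at a <;> linear_combination a / 2⟩
  have h4 : ∀ a b, Pf E a b := fun a b => by
    by_cases e : blk a = 0 ∧ blk b = 0
    · rcases pair_cert a e.1 b e.2 with h | rfl | ⟨l, -, rfl, rfl⟩
      · exact ⟨0, zero_mem _, fun c d _ _ => by simp [Fo, h, (bar_cert b).1]⟩
      · exact blk_trans (P := fun a => Pf E a a) (fun r p h => h.step (hn r)) (p := (1, 0, 2))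
          (by decide) e.1 h3
      · clear e
        induction l with
        | nil => exact h2
        | cons r l ih => exact ih.step (hn r)
    · refine ⟨0, zero_mem _, fun c d hc hd => ?_⟩
      rw [Fo, if_neg fun h : c = a ∧ d = b => e ⟨h.1 ▸ hc, h.2 ▸ hd⟩,
        if_neg fun h : c = bar b ∧ d = bar a => e ⟨by rw [← (bar_cert a).2.1, ← h.2, hd], by rw [← (bar_cert b).2.1, ← h.1, hc]⟩]
      simp
  choose Y h5 h6 using h4
  have h7 : (2⁻¹ : K) • ∑ a, ∑ b, X a b • Y a b ∈ L0 E := Submodule.smul_mem _ _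
    (sum_mem fun a _ => sum_mem fun b _ => Submodule.smul_mem _ _ (h5 a b))
  rwa [sub_eq_zero.1 (inj0 (sub_mem hX (L0_le E h7)) fun c d hc hd => ?_)]
  have bi : ∀ a b, a = bar b ↔ b = bar a := fun a b =>
    ⟨fun h => by rw [h, (bar_cert b).1], fun h => by rw [h, (bar_cert a).1]⟩
  simp only [Matrix.sub_apply, Matrix.smul_apply, Matrix.sum_apply, smul_eq_mul, h6 _ _ c d hc hd, Fo,
    Int.cast_sub, Int.cast_ite, Int.cast_one, Int.cast_zero, mul_sub, mul_ite, mul_one, mul_zero,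
    Finset.sum_sub_distrib, bi c, bi d, and_comm (a := _ = bar c), ite_and, Finset.sum_ite_eq,
    Finset.sum_ite_eq', Finset.mem_univ, if_true, Finset.sum_ite_irrel, Finset.sum_const_zero]
  linear_combination skew hX (hc.trans hd.symm) (hd ▸ by decide) / 2

end Vale.Agent.P011LN
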