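import Vale.Agent.P011LN.Ten
import Vale.Agent.P011LC.NC

/-!
The automorphisms of the split group of type `D₄`.
-/

set_option linter.all false

open Matrix

namespace Vale.Agent.P011LN

open Vale.Agent.P011L Vale.Agent.P011LT Vale.Agent.P011LA Vale.Agent.P011LC

variable {K : Type} [Field K] [CharZero K] {Ψ : SD K →* Matrix I I K}

theorem sq_of_inv {c : Fin 4 → K} (h : Inv (diagonal fun p => c (blk p))) (h3 : c 3 = 1)
    (j : Fin 3) : c j.castSucc * c j.castSucc = 1 := by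
  have a := h (ev (1, j, 2)) (ev (ix j)) (ev (bar (1, j, 2)))
  simp only [diag_ev, map_smul, LinearMap.smul_apply, smul_eq_mul, tri_eee, (top_n3 j).2.1, blk_ix,
    (bar_cert _).2.1, blk_top, h3, Int.cast_neg, Int.cast_one] at a
  linear_combination -a

theorem eq_of_gen (nc : NoCh (SD K)) (hp : PolM Ψ) (hi : ∀ g, Inv (Ψ g)) (hf : ∀ g, Fx (Ψ g))
    (he : ∀ r c, Ψ (ux (nl_em r) c) = 1 + c • em r) (hf' : ∀ r c, Ψ (ux (nl_fm r) c) = 1 + c • fm r)
    (g : SD K) : Ψ g = g.1.1 := by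
  let E : Subgroup (SD K) :=
    { carrier := {g | Ψ g = g.1.1}
      mul_mem' := fun {a b} x y => (map_mul Ψ a b).trans (by rw [x, y]; rfl)
      one_mem' := map_one Ψ
      inv_mem' := fun {a} x => by
        show Ψ a⁻¹ = (a.1⁻¹).1
        rw [← mul_one (Ψ a⁻¹), ← a.1.mul_inv, ← mul_assoc, ← x, ← map_mul, inv_mul_cancel, map_one,
          one_mul] }
  choose p hp using hp
  obtain ⟨D, hD⟩ := diff p
  have d1 : ∀ {X : Matrix I I K} (h : Nl X), (∀ c, Ψ (ux h c) = 1 + c • X) → ∀ g : SD K,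
      D (g.1.1 * X * (g⁻¹).1.1) = Ψ g * X * Ψ g⁻¹ := fun h e g => hD _ _ fun s a b => by
    rw [← ux_val (h.conj g), ← hp, ux_conj h, map_mul, map_mul, e, mul_add, add_mul, mul_one, ← map_mul,
      mul_inv_cancel, map_one, mul_smul_comm, smul_mul_assoc]
  have d2 : ∀ Y ∈ L0 E, D Y = Y := fun Y h => by
    induction h using Submodule.span_induction with
    | mem _ h =>
      obtain ⟨x, hx, r, rfl | rfl⟩ := h
      · rw [d1 _ (he r), hx, inv_mem hx]
      · rw [d1 _ (hf' r), hx, inv_mem hx]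
    | zero => exact map_zero D
    | add _ _ _ _ a b => rw [map_add, a, b]
    | smul c _ _ a => rw [map_smul, a]
  have d3 : ∀ {X : Matrix I I K} (h : Nl X), (∀ c, Ψ (ux h c) = 1 + c • X) → ∀ g : SD K,
      (g⁻¹).1.1 * Ψ g * X = X * ((g⁻¹).1.1 * Ψ g) := fun {X} h e g => by
    have a := (d1 h e g).symm.trans (d2 _ (lie_span (E := E) he hf' (h.conj g).mem))
    have b : Ψ g⁻¹ * Ψ g = 1 := by rw [← map_mul, inv_mul_cancel, map_one]
    have c : (g⁻¹).1.1 * g.1.1 = 1 := g.1.inv_mul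
    rw [← mul_one (_ * X), ← b, mul_assoc _ _ X, mul_assoc, ← mul_assoc (_ * X), a]
    simp only [← mul_assoc, c, one_mul]
  have d4 : ∀ g : SD K, ∃ c : Fin 4 → K, c 3 = 1 ∧ (g⁻¹).1.1 * Ψ g = diagonal fun p => c (blk p) :=
    fun g => commutant ((sd_fx g⁻¹).mul (hf g)) (fun r => d3 _ (he r) g) fun r => d3 _ (hf' r) g
  choose c c3 hc using d4
  have d5 : ∀ g : SD K, Ψ g = g.1.1 * diagonal fun p => c g (blk p) := fun g => by
    rw [← hc, ← mul_assoc, show g.1.1 * (g⁻¹).1.1 = 1 from g.1.mul_inv, one_mul]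
  have d6 : ∀ (j : Fin 3) g, c g j.castSucc = 1 := fun j => by
    have m : ∀ g h : SD K, c (g * h) j.castSucc = c g j.castSucc * c h j.castSucc := fun g h => by
      have a : (diagonal fun p => c (g * h) (blk p)) =
          diagonal (fun p => c g (blk p)) * diagonal fun p => c h (blk p) := by
        rw [← hc (g * h), map_mul, d5 g, d5 h, _root_.mul_inv_rev, mul_assoc g.1.1,
          ← mul_assoc _ h.1.1, ← (sd_bd h).comm (c g)]
        show (h.1⁻¹).1 * (g.1⁻¹).1 * _ = _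
        rw [mul_assoc, ← mul_assoc _ g.1.1, g.1.inv_mul, one_mul, ← mul_assoc, ← mul_assoc, h.1.inv_mul,
          one_mul]
      have b := congrFun (congrFun a (1, j, 2)) (1, j, 2)
      rwa [diagonal_mul_diagonal, diagonal_apply_eq, diagonal_apply_eq, blk_top] at b
    have q : ∀ g, c g j.castSucc * c g j.castSucc = 1 := fun g =>
      sq_of_inv (hc g ▸ (sd_inv g⁻¹).mul (hi g)) (c3 g) j
    intro g
    exact congrArg Units.val (nc Kˣ (MonoidHom.mk' (fun g => Units.mk0 (c g j.castSucc)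
      (left_ne_zero_of_mul_eq_one (q g))) fun g h => Units.ext (m g h)) (fun g => Units.ext (by
        show c g j.castSucc ^ 6 = 1
        linear_combination (c g j.castSucc ^ 4 + c g j.castSucc ^ 2 + 1) * q g)) g)
  rw [d5, show (fun p => c g (blk p)) = fun _ => 1 from funext fun p => ?_, diagonal_one, mul_one]
  by_cases e : blk p = 3
  · rw [e, c3]
  · obtain ⟨j, hj⟩ := blk_cases e
    rw [hj, d6]

theorem cd1 [IsAlgClosed K] (nc : NoCh (SD K)) (hp : PolM Ψ) (hi : ∀ g, Inv (Ψ g))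
    (hf : ∀ g, Fx (Ψ g)) (hz : ∀ i, Ψ (tau (zt K i)) = dg (zt K i)) :
    ∃ s : SD K, ∀ g, Ψ g * s.1.1 = s.1.1 * g.1.1 := by
  obtain ⟨s, h⟩ := exists_s2 hp (fun g => bd_of (M' := Ψ g⁻¹) (hi g) (hf g)
    (by rw [← map_mul, mul_inv_cancel, map_one])) hf hz
  obtain ⟨s, h⟩ := exists_s3 hi h
  exact ⟨s, fun g => cjm_eq.1 (eq_of_gen nc (hp.cjm s.1)
    (fun g => ((sd_inv s⁻¹).mul (hi g)).mul (sd_inv s))
    (fun g => ((sd_fx s⁻¹).mul (hf g)).mul (sd_fx s)) (fun r c => cjm_eq.2 (h.em r c))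
    (fun r c => cjm_eq.2 (h.fm r c)) g)⟩

theorem centre {g : SD K} (h : ∀ x, g * x = x * g) (h1 : g ≠ 1) : ∃ j, g = tau (zt K j) := by
  have a : ∀ {X : Matrix I I K} (hX : Nl X), g.1.1 * X = X * g.1.1 := fun {X} hX => by
    have b : g.1.1 * (1 + (1 : K) • X) = (1 + (1 : K) • X) * g.1.1 :=
      congrArg (fun x : SD K => x.1.1) (h (ux hX 1))
    rwa [one_smul, mul_add, add_mul, mul_one, one_mul, add_left_cancel_iff] at b
  obtain ⟨c, c3, hc⟩ := commutant (sd_fx g) (fun r => a (nl_em r)) fun r => a (nl_fm r)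
  have q := sq_of_inv (hc ▸ sd_inv g) c3
  have t := sd_inv g (ev (1, 0, 2)) (ev (0, 2, 0)) (ev (2, 2, 2))
  simp only [hc, diag_ev, map_smul, LinearMap.smul_apply, smul_eq_mul, tri_eee,
    show n3 (1, 0, 2) (0, 2, 0) (2, 2, 2) = -1 by decide, show blk (1, 0, 2) = 0 from rfl,
    show blk (0, 2, 0) = 1 from rfl, show blk (2, 2, 2) = 2 from rfl, Int.cast_neg, Int.cast_one] at t
  have e : ∀ j, (∀ k, c k = zs j k) → ∃ j, g = tau (zt K j) := fun j x =>
    ⟨j, sd_ext (by rw [hc, tau_val, dg_zt]; simp only [x])⟩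
  have q2 : c 2 = c 0 * c 1 := by
    have q0 : c 0 * c 0 = 1 := q 0
    have q1 : c 1 * c 1 = 1 := q 1
    linear_combination (-(c 0 * c 1)) * t - (c 2 * c 1 * c 1) * q0 - c 2 * q1
  rcases mul_self_eq_one_iff.1 (q 0) with x | x <;> rcases mul_self_eq_one_iff.1 (q 1) with y | y <;>
    change c 0 = _ at x <;> change c 1 = _ at y <;> rw [x, y] at q2
  · exact absurd (sd_ext (by
      rw [hc, show (fun p => c (blk p)) = fun _ => 1 from funext fun p => by
        generalize blk p = k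
        fin_cases k <;> simp [x, y, q2, c3], diagonal_one]; rfl)) h1
  · exact e 0 fun k => by fin_cases k <;> simp [x, y, q2, c3, zs]
  · exact e 1 fun k => by fin_cases k <;> simp [x, y, q2, c3, zs]
  · exact e 2 fun k => by fin_cases k <;> simp [x, y, q2, c3, zs]

theorem zt_inj {i j : Fin 3} (h : (tau (zt K i) : SD K) = tau (zt K j)) : i = j := by
  have a := congrArg (fun x : SD K => x.1.1 (1, i, 2) (1, i, 2)) h
  simp only [tau_val, dg_zt, diagonal_apply_eq, blk_top, Int.cast_inj] at a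
  exact ((zs_iff j i).1.1 (a ▸ (zs_iff i i).1.2 rfl)).symm

theorem zt_ne (i : Fin 3) : (tau (zt K i) : SD K) ≠ 1 := fun h => by
  have a := congrArg (fun x : SD K => x.1.1 (1, i + 2, 2) (1, i + 2, 2)) h
  have b : zs i (i + 2).castSucc = -1 := (by decide : ∀ i : Fin 3, zs i (i + 2).castSucc = -1) i
  simp only [tau_val, dg_zt, diagonal_apply_eq, blk_top, b, OneMemClass.coe_one, Units.val_one,
    one_apply_eq] at a
  norm_num at a

/-- simultaneous permutation of the rows and of the columns -/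
def pm (π : Fin 3 → Fin 3) (p : I) : I := (p.1, π p.2.1, π p.2.2)

theorem pm_cert : ∀ π : Fin 3 → Fin 3, Function.Injective π → (∀ i p, zs (π i) (blk (pm π p)) =
    zs i (blk p)) ∧ ∀ q r, sg (pm π q) (pm π r) = sg q r ∧
      (sg q r ≠ 0 → th (pm π q) (pm π r) = pm π (th q r)) := by decide +kernel

theorem cd : CD := fun K _ _ _ ψ h1 _ => by
  choose σ hσ using fun i => centre (g := ψ (tau (zt K i))) (fun x => by
    obtain ⟨y, rfl⟩ := ψ.surjective x
    rw [← map_mul, ← map_mul, zt_comm]) fun e => zt_ne i (ψ.map_eq_one_iff.1 e)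
  have inj : Function.Injective σ := fun i j e => zt_inj (ψ.injective (by rw [hσ, hσ, e]))
  let π : Equiv.Perm (Fin 3) := Equiv.ofBijective σ (Finite.injective_iff_bijective.1 inj)
  have pi : Function.Injective (pm σ) := fun p q e => Prod.ext (congrArg (·.1) e)
    (Prod.ext (inj (congrArg (·.2.1) e)) (inj (congrArg (·.2.2) e)))
  have one : (mono (fun b => b) fun _ => 1 * 1 : Matrix I I K) = 1 := by
    ext a b; simp [mono_apply, one_apply]
  let P : GL I K := ⟨mono (pm π) fun _ => 1, mono (pm π.symm) fun _ => 1,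
    by rw [mono_mul, ← one]; simp only [pm, Equiv.apply_symm_apply],
    by rw [mono_mul, ← one]; simp only [pm, Equiv.symm_apply_apply]⟩
  have Pe : ∀ p, P.1 *ᵥ ev p = ev (pm σ p) := fun p => (mono_ev ..).trans (by simp; rfl)
  have PI : Inv P.1 := inv_of_ev fun p q r => by
    obtain ⟨a, b⟩ := (pm_cert σ inj).2 q r
    rw [Pe, Pe, Pe, tri_eee, n3, n3, a]
    by_cases e : sg q r = 0
    · simp [e]
    · simp only [b e, pi.eq_iff]
  let Ψ : SD K →* Matrix I I K := (Units.coeHom _).comp ((SD K).subtype.comp ψ.toMonoidHom)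
  obtain ⟨s, hs⟩ := cd1 (Ψ := cjm P Ψ) (ncd K) (PolM.cjm (Ψ := Ψ) h1 P)
    (fun g => ((PI.inv P.mul_inv).mul (sd_inv (ψ g))).mul PI) (fun g i => by
      show ((P⁻¹).1 * (ψ g).1.1 * P.1) *ᵥ _ = _
      rw [← mulVec_mulVec, ← mulVec_mulVec, Pe, show pm σ (ix i) = ix (σ i) from rfl, sd_fx,
        show ix (σ i) = pm σ (ix i) from rfl, ← Pe, mulVec_mulVec, P.inv_mul, one_mulVec])
    fun i => cjm_eq.2 (by
      show (ψ (tau (zt K i))).1.1 * P.1 = _
      ext a b
      rw [hσ, tau_val, dg_zt, dg_zt, diagonal_mul, mul_diagonal, ← mulVec_ev P.1, Pe, ev_apply]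
      split_ifs with e
      · rw [e, (pm_cert σ inj).1, mul_comm]
      · simp)
  refine ⟨P * s.1, mul_mem (SE_of_inv PI) (SD_le s.2), π, fun i => ?_, fun g => ?_⟩
  · show (P.1 * s.1.1) *ᵥ ev (ix i) = ev (ix (σ i))
    rw [← mulVec_mulVec, sd_fx, Pe]; rfl
  · show Ψ g * (P.1 * s.1.1) = P.1 * s.1.1 * g.1.1
    rw [← mul_assoc, cjm_eq.1 rfl, mul_assoc, hs, mul_assoc]

end Vale.Agent.P011LN
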