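import Vale.Agent.P011LN.Wts

/-!
The normalisation on the torus and on the root subgroups.
-/

set_option linter.all false

open Matrix

namespace Vale.Agent.P011LN

open Vale.Agent.P011L Vale.Agent.P011LT Vale.Agent.P011LA

variable {K : Type} [Field K] [CharZero K] {Ψ : SD K →* Matrix I I K}

/-- conjugated representations -/
noncomputable def cjm (s : GL I K) (Ψ : SD K →* Matrix I I K) : SD K →* Matrix I I K where
  toFun g := (s⁻¹).1 * Ψ g * s.1
  map_one' := by rw [map_one, mul_one, s.inv_mul]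
  map_mul' g h := by
    rw [map_mul, mul_assoc _ s.1, ← mul_assoc s.1, ← mul_assoc s.1, s.mul_inv, one_mul]
    simp only [mul_assoc]

omit [CharZero K] in
theorem cjm_eq {s : GL I K} {g : SD K} {M : Matrix I I K} :
    cjm s Ψ g = M ↔ Ψ g * s.1 = s.1 * M := by
  show (s⁻¹).1 * Ψ g * s.1 = M ↔ _
  rw [mul_assoc, Units.inv_mul_eq_iff_eq_mul]

omit [CharZero K] in
theorem PolM.cjm (h : PolM Ψ) (s : GL I K) : PolM (cjm s Ψ) := fun a b => by
  choose p hp using h
  refine ⟨∑ d, ∑ c, MvPolynomial.C ((s⁻¹).1 a c * s.1 d b) * p c d, fun g => ?_⟩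
  show ((s⁻¹).1 * Ψ g * s.1) a b = _
  simp only [mul_apply, map_sum, map_mul, MvPolynomial.eval_C, ← hp, Finset.sum_mul]
  exact Finset.sum_congr rfl fun d _ => Finset.sum_congr rfl fun c _ => by ring

/-- the height -/
def ht : (Fin 4 → ℤ) →+ ℤ where
  toFun y := 3 * y 0 + 3 * y 1 + 3 * y 2 + 5 * y 3
  map_zero' := rfl
  map_add' y z := by simp only [Pi.add_apply]; ring

theorem ht_al : ∀ r, 0 < ht (al r) := by decide

theorem up_uniq {a a' b : I} {r : Fin 4} (h : wt a = wt b + al r) (h' : wt a' = wt b + al r) :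
    a = a' := (up_iff h).2.trans (up_iff h').2.symm

theorem dn_uniq {a b b' : I} {r : Fin 4} (h : wt a = wt b + al r) (h' : wt a = wt b' + al r) :
    b = b' := by rw [← rf_rf r b, ← (up_iff h).2, (up_iff h').2, rf_rf]

theorem up_blk {a b : I} {r : Fin 4} (h : wt a = wt b + al r) : blk a ≠ 3 ∧ blk b ≠ 3 := by
  have h1 : blk b ≠ 3 := fun e => by
    have := (up_iff h).1
    rw [blk3 b e, wt_ix'] at this
    omega
  exact ⟨by rw [(up_iff h).2, blk_rf]; exact h1, h1⟩

omit [CharZero K] in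
theorem reset {γ : Fin 4 → ℤ} {e e' : Matrix I I K} (h : Sh wt γ e) (h' : Sh wt γ e')
    (hb : ∀ a b, wt a = wt b + γ → blk a ≠ 3 ∧ blk b ≠ 3) {d : I → K}
    (c : e' * diagonal d = diagonal d * e) :
    e' * diagonal (fun p => if blk p = 3 then 1 else d p) =
      diagonal (fun p => if blk p = 3 then 1 else d p) * e := by
  ext a b
  have := congrFun (congrFun c a) b
  rw [mul_diagonal, diagonal_mul] at this ⊢
  by_cases x : wt a = wt b + γ
  · rwa [if_neg (hb a b x).1, if_neg (hb a b x).2]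
  · rw [by_contra fun y => x (h a b y), by_contra fun y => x (h' a b y), zero_mul, mul_zero]

theorem exists_d (hp : PolM Ψ) (ht' : ∀ t, Ψ (tau t) = dg t) :
    ∃ d : I → K, (∀ a, d a ≠ 0) ∧ (∀ i, d (ix i) = 1) ∧
      (∀ r c, Ψ (ux (nl_em r) c) * diagonal d = diagonal d * (1 + c • em r)) ∧
      ∀ r c, Ψ (ux (nl_fm r) c) * diagonal d = diagonal d * (1 + c • fm r) := by
  have sh : ∀ {X : Matrix I I K} (h : Nl X) {γ : Fin 4 → ℤ}, Sh wt γ X → (∃ r, γ r = 2 ∨ γ r = -2) →
      ∃ e : Matrix I I K, (∀ s, Ψ (ux h s) = 1 + s • e) ∧ Sh wt γ e := fun h γ hs ⟨r, hr⟩ =>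
    shape (hp.ux h) (by rw [ux_zero, map_one])
      (fun t s => by rw [← dg, ← ht', ← map_mul, tau_ux h hs, map_mul]) fun a b m hm e => by
        have a1 := congrFun e r
        have a2 := wt_le a r
        have a3 := wt_le b r
        rw [Pi.add_apply, Pi.smul_apply, nsmul_eq_mul] at a1
        rcases hr with hr | hr <;> rw [hr] at a1 <;> omega
  choose e e1 e2 using fun r => sh (nl_em r) (sh_em r) ⟨r, .inl (al_self r)⟩
  choose f f1 f2 using fun r => sh (nl_fm r) (sh_fm r) ⟨r, .inr (congrArg Neg.neg (al_self r))⟩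
  have ed : ∀ r a b, wt a = wt b + al r → f r b a * e r a b = 1 := fun r a b h => by
    have h1 : Ψ (nn r) a a = 0 := by_contra fun x => by
      have h2 : wt a = wt a - wt a r • al r := ch_inj (K := K) (MonoidHom.ext fun t => by
        obtain ⟨u, a1, a2⟩ := tau_nn (K := K) r t
        have a3 := congrFun (congrFun (congrArg Ψ a1) a) a
        rw [map_mul, map_mul, ht', ht', dg, dg, diagonal_mul, mul_diagonal, a2, mul_comm] at a3
        exact mul_left_cancel₀ x a3)
      have h3 := congrFun h2 r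
      have h4 := congrFun h r
      rw [Pi.add_apply, (up_iff h).1, al_self] at h4
      rw [Pi.sub_apply, Pi.smul_apply, al_self, smul_eq_mul] at h3
      omega
    have h2 := edge (w := wt) (α := -al r) (e := -f r) (f := -e r) (a := b) (b := a)
      (fun p q x => f2 r p q (neg_ne_zero.1 x)) (fun p q x => by
        rw [neg_neg]; exact e2 r p q (neg_ne_zero.1 x)) (neg_ne_zero.2 (al_ne r))
      (fun c x => dn_uniq (by rw [x]; simp) h) (fun c x => by
        have a1 := congrFun x r
        have a2 := congrFun h r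
        have a3 := wt_le c r
        simp only [Pi.add_apply, Pi.neg_apply, (up_iff h).1, al_self] at a1 a2
        omega) (by
        rw [nn, map_mul, map_mul, e1, f1, neg_one_smul, one_smul] at h1
        rwa [sub_neg_eq_add])
    rw [Matrix.neg_apply, Matrix.neg_apply, neg_mul_neg] at h2
    rw [mul_comm, h2]
  have cm : ∀ r q, r ≠ q → e r * f q = f q * e r := fun r q h => by
    have a : (ux (nl_em r) 1 * ux (nl_fm q) 1 : SD K) = ux (nl_fm q) 1 * ux (nl_em r) 1 := sd_ext (by
      show (1 + (1 : K) • em r) * (1 + (1 : K) • fm q) = (1 + (1 : K) • fm q) * (1 + (1 : K) • em r)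
      simp only [one_smul, mul_add, add_mul, mul_one, one_mul, em_fm h]
      abel)
    have b := congrArg Ψ a
    simp only [map_mul, e1, f1, one_smul, mul_add, add_mul, mul_one, one_mul] at b
    rw [add_assoc, add_assoc, add_left_comm (e r), add_left_cancel_iff, add_left_cancel_iff,
      add_left_cancel_iff] at b
    exact b
  obtain ⟨d, d0, d1, d2⟩ := min_iso wt al ht ht_al (fun _ _ _ _ => up_uniq) (fun _ _ _ _ => dn_uniq)
    sh_em sh_fm e2 f2 ed_em ed (fun _ _ => em_fm) cm
  refine ⟨fun p => if blk p = 3 then 1 else d p, fun a => ?_,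
    fun i => if_pos (if_pos rfl |>.trans (if_pos rfl)), fun r c => ?_, fun r c => ?_⟩
  · dsimp only
    split_ifs
    exacts [one_ne_zero, d0 a]
  · rw [e1, add_mul, mul_add, one_mul, mul_one, smul_mul_assoc, mul_smul_comm,
      reset (sh_em r) (e2 r) (fun _ _ => up_blk) (d1 r)]
  · rw [f1, add_mul, mul_add, one_mul, mul_one, smul_mul_assoc, mul_smul_comm,
      reset (sh_fm r) (f2 r) (fun a b x => (up_blk (r := r) (by rw [x]; simp)).symm) (d2 r)]

/-- the matrix intertwines on the generators -/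
structure It (Ψ : SD K →* Matrix I I K) (s : Matrix I I K) : Prop where
  bd : Bd s
  fx : Fx s
  tau : ∀ t, Ψ (tau t) * s = s * dg t
  em : ∀ r c, Ψ (ux (nl_em r) c) * s = s * (1 + c • em r)
  fm : ∀ r c, Ψ (ux (nl_fm r) c) * s = s * (1 + c • fm r)

/-- invertible diagonal matrices -/
def dgl (d : I → K) (h : ∀ a, d a ≠ 0) : GL I K :=
  ⟨diagonal d, diagonal fun a => (d a)⁻¹,
    by rw [diagonal_mul_diagonal, ← diagonal_one]; exact congrArg _ (funext fun a => mul_inv_cancel₀ (h a)),
    by rw [diagonal_mul_diagonal, ← diagonal_one]; exact congrArg _ (funext fun a => inv_mul_cancel₀ (h a))⟩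

theorem exists_s2 (hp : PolM Ψ) (hb : ∀ g, Bd (Ψ g)) (hf : ∀ g, Fx (Ψ g))
    (hz : ∀ i, Ψ (tau (zt K i)) = dg (zt K i)) : ∃ s : GL I K, It Ψ s.1 := by
  obtain ⟨s, s1, s2, s3⟩ := exists_s1 hp hb hf hz
  obtain ⟨d, d0, d1, d2, d3⟩ := exists_d (hp.cjm s) fun t => cjm_eq.2 (s3 t)
  have a : ∀ (g : SD K) (M : Matrix I I K), cjm s Ψ g * diagonal d = diagonal d * M →
      Ψ g * (s.1 * diagonal d) = s.1 * diagonal d * M := fun g M h => by
    rw [← mul_assoc, cjm_eq.1 rfl, mul_assoc, h, mul_assoc]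
  refine ⟨s * dgl d d0, s1.mul (Bd.diag d), s2.mul fun i => ?_, fun t => a _ _ ?_,
    fun r c => a _ _ (d2 r c), fun r c => a _ _ (d3 r c)⟩
  · show diagonal d *ᵥ _ = _
    rw [diag_ev, d1, one_smul]
  · rw [cjm_eq.2 (s3 t), dg, diagonal_mul_diagonal, diagonal_mul_diagonal]
    exact congrArg _ (funext fun a => mul_comm _ _)

end Vale.Agent.P011LN
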