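import Vale.Agent.P011LN.Nrm
import Vale.Agent.P011LN.Lie

/-!
The invariant trilinear forms: the intertwining matrix can be chosen in the group.
-/

set_option linter.all false

open Matrix

namespace Vale.Agent.P011LN

open Vale.Agent.P011L Vale.Agent.P011LT Vale.Agent.P011LA

variable {K : Type} [Field K] [CharZero K] {Ψ : SD K →* Matrix I I K} {s : Matrix I I K}

theorem It.nn (h : It Ψ s) (r : Fin 4) : Ψ (nn r) * s = s * nm r := by
  rw [P011LN.nn, map_mul, map_mul, mul_assoc, h.fm, mul_assoc, ← mul_assoc (Ψ _) s, h.em, mul_assoc,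
    ← mul_assoc (Ψ _) s, h.fm, ← nm_eq]
  simp only [mul_assoc]

/-- the coefficient is multiplied by `k` -/
def Sy (s : Matrix I I K) (k : K) (p q r : I) : Prop :=
  tri (s *ᵥ ev p) (s *ᵥ ev q) (s *ᵥ ev r) = k * tri (ev p) (ev q) (ev r)

omit [CharZero K] in
theorem Sy.s12 {k : K} {p q r : I} (h : Sy s k p q r) : Sy s k q p r := by
  rw [Sy, tri12, h, tri12]

omit [CharZero K] in
theorem Sy.s23 {k : K} {p q r : I} (h : Sy s k p q r) : Sy s k p r q := by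
  rw [Sy, tri23, h, tri23]

theorem Sy.rf (hi : ∀ g, Inv (Ψ g)) (h : It Ψ s) {k : K} {p q t : I} (a : Sy s k p q t) (r : Fin 4) :
    Sy s k (rf r p) (rf r q) (rf r t) := by
  have a1 := hi (P011LN.nn r) (s *ᵥ ev p) (s *ᵥ ev q) (s *ᵥ ev t)
  have a2 := sd_inv (P011LN.nn r : SD K) (ev p) (ev q) (ev t)
  simp only [mulVec_mulVec, h.nn] at a1
  simp only [← mulVec_mulVec, nn_val, nm, mono_ev, mulVec_smul, map_smul, LinearMap.smul_apply,
    smul_eq_mul] at a1 a2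
  have b : ∀ p, (sn r p : K) ≠ 0 := fun p => Int.cast_ne_zero.2 (left_ne_zero_of_mul_eq_one (sn_sq r p))
  refine mul_left_cancel₀ (b p) (mul_left_cancel₀ (b q) (mul_left_cancel₀ (b t) ?_))
  rw [Sy] at a
  linear_combination a1 + a - k * a2

theorem Sy.wt (hi : ∀ g, Inv (Ψ g)) (h : It Ψ s) (k : K) {p q r : I} (e : wt p + wt q + wt r ≠ 0) :
    Sy s k p q r := by
  obtain ⟨t, ht⟩ : ∃ t, (ch (P011LN.wt p + P011LN.wt q + P011LN.wt r) t : K) ≠ 1 := by_contra fun x => by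
    push Not at x
    exact e (ch_inj (K := K) (MonoidHom.ext fun t => (x t).trans (ch_zero t).symm))
  have a1 := hi (tau t) (s *ᵥ ev p) (s *ᵥ ev q) (s *ᵥ ev r)
  have a2 := sd_inv (tau t : SD K) (ev p) (ev q) (ev r)
  simp only [mulVec_mulVec, h.tau] at a1
  simp only [← mulVec_mulVec, tau_val, dg, diag_ev, mulVec_smul, map_smul, LinearMap.smul_apply,
    smul_eq_mul] at a1 a2
  rw [ch_add, ch_add] at ht
  refine mul_left_cancel₀ (sub_ne_zero.2 ht) ?_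
  linear_combination a1 - k * a2

/-- the words for the triples -/
def W32 : List (List (Fin 4)) :=
  [[], [0], [2], [2, 0], [3, 0], [3, 2], [3, 2, 0], [1, 3, 0], [2, 3, 0], [0, 3, 2], [1, 3, 2],
    [0, 3, 2, 0], [1, 3, 2, 0], [2, 3, 2, 0], [2, 1, 3, 0], [1, 0, 3, 2], [1, 0, 3, 2, 0], [2,
    0, 3, 2, 0], [2, 1, 3, 2, 0], [3, 2, 1, 3, 0], [3, 1, 0, 3, 2], [2, 1, 0, 3, 2, 0], [3, 1,
    0, 3, 2, 0], [3, 2, 1, 3, 2, 0], [0, 3, 2, 1, 3, 0], [2, 3, 1, 0, 3, 2], [3, 2, 1, 0, 3, 2,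
    0], [2, 3, 1, 0, 3, 2, 0], [0, 3, 2, 1, 3, 2, 0], [0, 3, 2, 1, 0, 3, 2, 0], [2, 3, 2, 1, 0,
    3, 2, 0], [2, 0, 3, 2, 1, 0, 3, 2, 0]]

theorem tri_cert : ∀ p, blk p = 0 → ∀ q, blk q = 1 → sg p q ≠ 0 → ∃ l ∈ W32,
    act l (1, 0, 2) = p ∧ act l (0, 2, 0) = q ∧ act l (2, 2, 2) = th p q := by decide +kernel

/-- sorted triples -/
abbrev So (p q r : I) : Prop := blk p = 0 ∧ blk q = 1 ∧ sg p q ≠ 0 ∧ r = th p q

theorem so_cert : ∀ p, blk p ≠ 3 → ∀ q, blk q ≠ 3 → ∀ r, blk r ≠ 3 →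
    (∀ s, wt p s + wt q s + wt r s = 0) →
    So p q r ∨ So p r q ∨ So q p r ∨ So q r p ∨ So r p q ∨ So r q p := by decide +kernel

theorem wt_bar : ∀ q s, wt (bar q) s = -wt q s := by decide +kernel

theorem blk_ix : ∀ i, blk (ix i) = 3 := by decide

theorem blk_top : ∀ j : Fin 3, blk (1, j, 2) = j.castSucc := by decide

theorem top_n3 : ∀ j : Fin 3, n3 (1, j, 2) (ix j) (1, j, 2) = 0 ∧
    n3 (1, j, 2) (ix j) (bar (1, j, 2)) = -1 ∧ n3 (bar (1, j, 2)) (ix j) (1, j, 2) = -1 ∧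
    n3 (bar (1, j, 2)) (ix j) (bar (1, j, 2)) = 0 := by decide +kernel

/-- the multipliers -/
def mu (κ : Fin 4 → K) (a b c : Fin 4) : K :=
  if a = 3 then (if b = 3 then 1 else κ b) else if b = 3 ∨ c = 3 then κ a else κ 3

theorem exists_mu (hi : ∀ g, Inv (Ψ g)) (h : It Ψ s) :
    ∃ κ : Fin 4 → K, ∀ p q r, Sy s (mu κ (blk p) (blk q) (blk r)) p q r := by
  let κ : Fin 4 → K := Fin.lastCases (motive := fun _ => K)
    (-tri (s *ᵥ ev (1, 0, 2)) (s *ᵥ ev (0, 2, 0)) (s *ᵥ ev (2, 2, 2)))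
    fun j => -tri (s *ᵥ ev (1, j, 2)) (s *ᵥ ev (ix j)) (s *ᵥ ev (bar (1, j, 2)))
  have f3 : ∀ (j : Fin 3) q, blk q = j.castSucc → Sy s (κ j.castSucc) (ix j) q (bar q) := fun j q e =>
    blk_trans (P := fun q => Sy s (κ j.castSucc) (ix j) q (bar q)) (p := (1, j, 2))
      (fun r q a => by have := a.rf hi h r; rwa [(rf_ix r j).1, ← (bar_rf r q).1] at this)
      (by rw [blk_top]; exact (Fin.castSucc_lt_last j).ne) (e.trans (blk_top j).symm) (Sy.s12 (by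
        rw [Sy, tri_eee, (top_n3 j).2.1]; simp [κ]))
  have f4 : ∀ p q r, So p q r → Sy s (κ 3) p q r := fun p q r e => by
    obtain ⟨l, -, a1, a2, a3⟩ := tri_cert p e.1 q e.2.1 e.2.2.1
    rw [e.2.2.2, ← a3, ← a1, ← a2]
    clear a1 a2 a3
    induction l with
    | nil =>
      show Sy s _ (1, 0, 2) (0, 2, 0) (2, 2, 2)
      rw [Sy, tri_eee, show n3 (1, 0, 2) (0, 2, 0) (2, 2, 2) = -1 by decide,
        show κ 3 = _ from Fin.lastCases_last]
      simp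
    | cons r l ih => exact ih.rf hi h r
  have g1 : ∀ p q r, blk p = 3 → Sy s (if blk q = 3 then 1 else κ (blk q)) p q r := fun p q r e => by
    by_cases w0 : wt p + wt q + wt r = 0
    swap
    · exact Sy.wt hi h _ w0
    rw [blk3 p e] at w0 ⊢
    rw [wt_ix, zero_add] at w0
    split_ifs with e1
    · rw [blk3 q e1, wt_ix, zero_add, ← wt_ix 0] at w0
      have e2 : blk r = 3 := (wt_inj w0).elim (fun x => x ▸ blk_ix 0) (·.1)
      rw [Sy, blk3 q e1, blk3 r e2, h.fx, h.fx, h.fx, one_mul]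
    by_cases e2 : blk q = p.2.1.castSucc
    · have e3 : r = bar q := (wt_inj (funext fun x => by
        rw [wt_bar]; exact eq_neg_of_add_eq_zero_right (congrFun w0 x))).resolve_right
          fun x => e1 ((bar_cert q).2.1 ▸ x.2)
      rw [e3, e2]
      exact f3 _ q e2
    · rw [Sy, h.fx, tri12, (h.bd.sup (sup_ev q)).rad e1 e2, tri12, (sup_ev q).rad e1 e2, mul_zero]
  refine ⟨κ, fun p q r => ?_⟩
  rw [mu]
  by_cases e1 : blk p = 3
  · rw [if_pos e1]; exact g1 p q r e1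
  rw [if_neg e1]
  by_cases e2 : blk q = 3
  · rw [if_pos (.inl e2)]
    exact (if_neg e1 ▸ g1 q p r e2 :).s12
  by_cases e3 : blk r = 3
  · rw [if_pos (.inr e3)]
    exact (if_neg e1 ▸ g1 r p q e3 :).s12.s23
  rw [if_neg (not_or.2 ⟨e2, e3⟩)]
  by_cases w0 : wt p + wt q + wt r = 0
  · rcases so_cert p e1 q e2 r e3 (congrFun w0) with x | x | x | x | x | x
    exacts [f4 _ _ _ x, (f4 _ _ _ x).s23, (f4 _ _ _ x).s12, (f4 _ _ _ x).s23.s12,
      (f4 _ _ _ x).s12.s23, (f4 _ _ _ x).s12.s23.s12]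
  · exact Sy.wt hi h _ w0

omit [CharZero K] in
theorem ext_sup {M : Type} [AddCommGroup M] [Module K M] {F G : (I → K) →ₗ[K] M} {j : Fin 4}
    (h : ∀ p, blk p = j → F (ev p) = G (ev p)) {x : I → K} (hx : Sup j x) : F x = G x := by
  rw [pi_eq_sum_univ' x, map_sum, map_sum]
  refine Finset.sum_congr rfl fun p _ => ?_
  by_cases e : blk p = j
  · rw [map_smul, map_smul]; exact congrArg _ (h p e)
  · rw [hx p e, zero_smul, map_zero, map_zero]

omit [CharZero K] in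
theorem Bd.inv {M N : Matrix I I K} (h : Bd M) (e : M * N = 1) : Bd N := fun a b x => by
  let c : Fin 4 → K := fun k => if k = blk a then 1 else 0
  have a1 : N * diagonal (fun p => c (blk p)) = diagonal (fun p => c (blk p)) * N := by
    rw [← mul_one (N * _), ← e, ← mul_assoc, mul_assoc N, ← h.comm, ← mul_assoc,
      mul_eq_one_comm.1 e, one_mul]
  have a2 := congrFun (congrFun a1 a) b
  rw [mul_diagonal, diagonal_mul] at a2
  simpa [c, Ne.symm x] using a2.symm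

theorem tri_top (j : Fin 3) : tri (ev (1, j, 2) + ev (bar (1, j, 2)) : I → K) (ev (ix j))
    (ev (1, j, 2) + ev (bar (1, j, 2))) = -2 := by
  obtain ⟨a, b, c, d⟩ := top_n3 j
  simp only [map_add, LinearMap.add_apply, tri_eee, a, b, c, d]
  norm_num

omit [CharZero K] in
theorem sup_top (j : Fin 3) : Sup j.castSucc (ev (1, j, 2) + ev (bar (1, j, 2)) : I → K) :=
  fun p e => by
    rw [Pi.add_apply, sup_ev _ p (blk_top j ▸ e), sup_ev _ p (by rwa [(bar_cert _).2.1, blk_top]),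
      add_zero]

theorem ofNat_cs : ∀ j : Fin 3, Fin.ofNat 3 j.castSucc = j := by decide

omit [CharZero K] in
theorem tri_bar (x : I → K) {j : Fin 3} {r : I} (e : blk r = j.castSucc) :
    tri x (ev (ix j)) (ev r) = -x (bar r) := by
  have a := (bar_cert r).2.2 (e ▸ (Fin.castSucc_lt_last j).ne)
  rw [bar, tri_ee]
  rw [e, ofNat_cs] at a ⊢
  rw [a]; simp

/-- the possible blocks -/
abbrev B3 (a b c : Fin 4) : Prop := (a = 3 ∧ b = 3 ∧ c = 3) ∨ (a = 3 ∧ b ≠ 3 ∧ c = b) ∨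
  (b = 3 ∧ a ≠ 3 ∧ c = a) ∨ (c = 3 ∧ a ≠ 3 ∧ b = a) ∨
  (a ≠ 3 ∧ b ≠ 3 ∧ c ≠ 3 ∧ a ≠ b ∧ a ≠ c ∧ b ≠ c)

theorem b3_cert : ∀ q r, sg q r ≠ 0 → B3 (blk (th q r)) (blk q) (blk r) := by decide +kernel

theorem exists_s3 [IsAlgClosed K] (hi : ∀ g, Inv (Ψ g)) {s : GL I K} (h : It Ψ s.1) :
    ∃ s : SD K, It Ψ s.1.1 := by
  obtain ⟨κ, hκ⟩ := exists_mu hi h
  have b1 : ∀ (j : Fin 3) x, Sup j.castSucc x → ∀ y, tri (s.1 *ᵥ x) (ev (ix j)) (s.1 *ᵥ y) =
      κ j.castSucc * tri x (ev (ix j)) y := fun j x hx y => by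
    have := ext_sup (F := (cmp s.1 s.1 s.1).flip (ev (ix j))) (G := κ j.castSucc • tri.flip (ev (ix j)))
      (fun p e => (Pi.basisFun K I).ext fun r => by
        have a := hκ p (ix j) r
        rw [mu, e, blk_ix, if_neg (show j.castSucc ≠ 3 from (Fin.castSucc_lt_last j).ne),
          if_pos (.inl rfl)] at a
        rw [Pi.basisFun_apply]; exact a) hx
    rw [← h.fx j]
    nth_rewrite 2 [h.fx j]
    exact congrArg (fun F : (I → K) →ₗ[K] K => F y) this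
  have b2 : ∀ u v y, Sup 0 u → Sup 1 v → Sup 2 y → tri (s.1 *ᵥ u) (s.1 *ᵥ v) (s.1 *ᵥ y) =
      κ 3 * tri u v y := fun u v y hu hv hy =>
    ext_sup (F := ((cmp s.1 s.1 s.1).flip v).flip y) (G := ((κ 3 • tri).flip v).flip y) (fun p e =>
      ext_sup (F := (cmp s.1 s.1 s.1 (ev p)).flip y) (G := ((κ 3 • tri) (ev p)).flip y) (fun q e' =>
        ext_sup (F := cmp s.1 s.1 s.1 (ev p) (ev q)) (G := (κ 3 • tri) (ev p) (ev q))
          (fun r e'' => by have a := hκ p q r; rwa [e, e', e''] at a) hy) hv) hu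
  have si : ∀ x : I → K, s.1 *ᵥ (s⁻¹).1 *ᵥ x = x := fun x => by
    rw [mulVec_mulVec, s.mul_inv, one_mulVec]
  have k0 : ∀ j : Fin 3, κ j.castSucc ≠ 0 := fun j e => by
    have a : s.1 *ᵥ ev (1, j, 2) = 0 := funext fun p => by
      by_cases x : blk p = j.castSucc
      · have a := b1 j _ (blk_top j ▸ sup_ev _) ((s⁻¹).1 *ᵥ ev (bar p))
        rwa [si, e, zero_mul, tri_bar _ ((bar_cert p).2.1.trans x), (bar_cert p).1, neg_eq_zero] at a
      · exact h.bd.sup (sup_ev _) p (blk_top j ▸ x)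
    have b := congrFun (congrArg ((s⁻¹).1 *ᵥ ·) a) (1, j, 2)
    simp only [mulVec_mulVec, s.inv_mul, one_mulVec, mulVec_zero, ev_self, Pi.zero_apply] at b
    exact one_ne_zero b
  have k3 : κ 3 ^ 2 = κ 0 * κ 1 * κ 2 := by
    have hu := sup_top (K := K) 0
    have hv := sup_top (K := K) 1
    have tu := tri_top (K := K) 0
    have tv := tri_top (K := K) 1
    generalize (ev (1, 0, 2) + ev (bar (1, 0, 2)) : I → K) = u at hu tu
    generalize (ev (1, 1, 2) + ev (bar (1, 1, 2)) : I → K) = v at hv tv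
    let x : I → K := fun a => if blk a = 2 then -tri u v (ev (bar a)) else 0
    have hx : Sup 2 x := fun a e => if_neg e
    have c1 : ∀ r, blk r = 2 → tri x (ev (ix 2)) (ev r) = tri u v (ev r) := fun r e => by
      rw [tri_bar (j := 2) x e]
      simp only [x, (bar_cert r).2.1, e, if_true, (bar_cert r).1, neg_neg]
    have c2 := compo hu hv hx c1
    have c3 := compo (x := (κ 3 / κ 2) • s.1 *ᵥ x) (h.bd.sup hu) (h.bd.sup hv)
      (fun a e => by rw [Pi.smul_apply, h.bd.sup hx a e, smul_zero]) fun r e => by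
        have hy : Sup 2 ((s⁻¹).1 *ᵥ ev r) := (h.bd.inv s.mul_inv).sup (e ▸ sup_ev r)
        rw [← si (ev r), b2 u v _ hu hv hy, map_smul, LinearMap.smul_apply, LinearMap.smul_apply,
          b1 2 x hx, ext_sup c1 hy, smul_eq_mul, ← mul_assoc]
        exact congrArg (· * _) (div_mul_cancel₀ _ (k0 2))
    simp only [map_smul, LinearMap.smul_apply, smul_eq_mul] at c3
    rw [b1 2 x hx, b1 0 u hu, b1 1 v hv, tu, tv] at c3
    rw [tu, tv] at c2
    have c4 : κ 2 ≠ 0 := k0 2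
    have c5 : tri x (ev (ix 2)) x = -2 := by linear_combination c2 / (-2)
    rw [c5] at c3
    change -2 * (κ 3 / κ 2 * (κ 3 / κ 2 * (κ 2 * -2))) = κ 0 * -2 * (κ 1 * -2) at c3
    field_simp at c3
    linear_combination c3
  obtain ⟨l0, h0⟩ := IsAlgClosed.exists_eq_mul_self (κ 0)⁻¹
  obtain ⟨l1, h1⟩ := IsAlgClosed.exists_eq_mul_self (κ 1)⁻¹
  have z0 : κ 0 ≠ 0 := k0 0
  have z1 : κ 1 ≠ 0 := k0 1
  have z2 : κ 2 ≠ 0 := k0 2
  have z3 : κ 3 ≠ 0 := fun e => mul_ne_zero (mul_ne_zero z0 z1) z2 (by rw [← k3, e]; ring)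
  have y0 : l0 * l0 * κ 0 = 1 := h0 ▸ inv_mul_cancel₀ z0
  have y1 : l1 * l1 * κ 1 = 1 := h1 ▸ inv_mul_cancel₀ z1
  have x0 : l0 ≠ 0 := left_ne_zero_of_mul (left_ne_zero_of_mul_eq_one y0)
  have x1 : l1 ≠ 0 := left_ne_zero_of_mul (left_ne_zero_of_mul_eq_one y1)
  obtain ⟨l2, y3⟩ : ∃ l2, l0 * l1 * l2 * κ 3 = 1 := ⟨(l0 * l1 * κ 3)⁻¹, by field_simp⟩
  have y2 : l2 * l2 * κ 2 = 1 := by
    linear_combination (-(l2 * l2 * κ 2 * l1 * l1 * κ 1)) * y0 - (l2 * l2 * κ 2) * y1 -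
      (l0 * l1 * l2) ^ 2 * k3 + (l0 * l1 * l2 * κ 3 + 1) * y3
  let c : Fin 4 → K := ![l0, l1, l2, 1]
  have c0 : ∀ a, c a ≠ 0 := fun a => by
    fin_cases a
    exacts [x0, x1, left_ne_zero_of_mul (left_ne_zero_of_mul_eq_one y2), one_ne_zero]
  have c1 : ∀ a, a ≠ 3 → c a * c a * κ a = 1 := fun a e => by
    fin_cases a
    exacts [y0, y1, y2, absurd rfl e]
  have c2 : ∀ a b d, B3 a b d → c a * c b * c d * mu κ a b d = 1 := by
    rintro a b d (⟨rfl, rfl, rfl⟩ | ⟨rfl, e, rfl⟩ | ⟨rfl, e, rfl⟩ | ⟨rfl, e, rfl⟩ | e)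
    · simp [c, mu]
    · rw [mu, if_pos rfl, if_neg e, ← c1 _ e]; simp [c]
    · rw [mu, if_neg e, if_pos (.inl rfl), ← c1 _ e]; simp [c]
    · rw [mu, if_neg e, if_pos (.inr rfl), ← c1 _ e]; simp [c]
    · rw [mu, if_neg e.1, if_neg (not_or.2 ⟨e.2.1, e.2.2.1⟩)]
      fin_cases a <;> fin_cases b <;> fin_cases d <;>
        first | exact absurd e (by decide) | (simp only [c]; simp; linear_combination y3)
  let D := dgl (fun p => c (blk p)) fun p => c0 _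
  have cm : ∀ (g : SD K) (M : Matrix I I K), g.1.1 = M → Ψ g * s.1 = s.1 * M →
      Ψ g * (s * D).1 = (s * D).1 * M := fun g M e x => by
    rw [Units.val_mul, ← mul_assoc, x, mul_assoc, mul_assoc, ← e]
    exact congrArg _ ((sd_bd g).comm c)
  have fx : Fx (s * D).1 := h.fx.mul fun i => by
    show diagonal _ *ᵥ _ = _
    rw [diag_ev, blk_ix]; exact one_smul _ _
  refine ⟨mk (s * D).mul_inv (inv_of_ev fun p q r => ?_) fx, h.bd.mul (Bd.diag _), fx,
    fun t => cm _ _ rfl (h.tau t), fun r c => cm _ _ rfl (h.em r c), fun r c => cm _ _ rfl (h.fm r c)⟩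
  have a := hκ p q r
  show tri ((s.1 * diagonal _) *ᵥ _) ((s.1 * diagonal _) *ᵥ _) ((s.1 * diagonal _) *ᵥ _) = _
  rw [Sy, tri_eee] at a
  simp only [← mulVec_mulVec, diag_ev, mulVec_smul, map_smul, LinearMap.smul_apply, smul_eq_mul, a]
  by_cases e : n3 p q r = 0
  · simp [e]
  · have e1 : p = th q r := by_contra fun x => e (if_neg x)
    have e2 := c2 _ _ _ (e1 ▸ b3_cert q r fun x => e (by rw [n3, if_pos e1, x]))
    linear_combination (n3 p q r : K) * e2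

end Vale.Agent.P011LN
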