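import Vale.Agent.P011LT.Basic
import Mathlib.Tactic.LinearCombination

/-!
The trilinear form of the cubic form, in coordinates.
-/

set_option linter.all false

open Matrix

namespace Vale.Agent.P011LN

open Vale.Agent.P011L Vale.Agent.P011LT

/-- the index set -/
abbrev I := Fin 3 × Fin 3 × Fin 3

/-- the sign of a pair -/
def ep (i j : Fin 3) : ℤ := if i = j then 0 else if j = i + 1 then 1 else -1

/-- the coefficient of a pair of indices -/
def sg (q r : I) : ℤ :=
  if q.1 = r.1 then ep q.2.1 r.2.1 * ep q.2.2 r.2.2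
  else if r.1 = q.1 + 1 then (if q.2.2 = r.2.1 then -1 else 0) else if r.2.2 = q.2.1 then -1 else 0

/-- the third index -/
def th (q r : I) : I :=
  if q.1 = r.1 then (q.1, 2 * (q.2.1 + r.2.1), 2 * (q.2.2 + r.2.2))
  else if r.1 = q.1 + 1 then (q.1 + 2, r.2.2, q.2.1) else (q.1 + 1, q.2.2, r.2.1)

/-- the coefficients of the trilinear form -/
def n3 (p q r : I) : ℤ := if p = th q r then sg q r else 0

variable {K : Type} [Field K]

/-- trilinear forms -/
abbrev T3 (K : Type) [Field K] := (I → K) →ₗ[K] (I → K) →ₗ[K] (I → K) →ₗ[K] K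

/-- the trilinear form -/
@[irreducible] noncomputable def tri : T3 K := ∑ q, ∑ r, (sg q r : K) •
  (LinearMap.proj (th q r) : (I → K) →ₗ[K] K).smulRight
    ((LinearMap.proj q : (I → K) →ₗ[K] K).smulRight (LinearMap.proj r))

theorem tri_apply (x y z : I → K) :
    tri x y z = ∑ q, ∑ r, (sg q r : K) * (x (th q r) * (y q * z r)) := by
  simp only [tri, LinearMap.sum_apply, LinearMap.smul_apply, LinearMap.smulRight_apply,
    LinearMap.proj_apply, smul_eq_mul]

set_option maxRecDepth 20000 in
theorem tri_pol (x y z : I → K) : tri x y z =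
    cub (x + y + z) - cub (x + y) - cub (x + z) - cub (y + z) + cub x + cub y + cub z := by
  rw [tri_apply]
  simp only [cub, det_fin_three, trace_fin_three, mul_apply, Fin.sum_univ_three, of_apply,
    Pi.add_apply]
  simp only [Fintype.sum_prod_type, Fin.sum_univ_three]
  simp only [sg, th, ep, Fin.reduceEq, Fin.reduceAdd, Fin.reduceMul, reduceIte, Fin.isValue,
    mul_zero, zero_mul, Int.cast_zero, add_zero, zero_add, neg_zero, mul_one, mul_neg, neg_neg,
    Int.cast_one, Int.cast_neg, one_mul]
  ring

end Vale.Agent.P011LN
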