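import Vale.Agent.P011LN.Grp
import Mathlib.Algebra.CharZero.Infinite

/-!
The weights of a polynomial endomorphism which fixes the centre.
-/

set_option linter.all false

open Matrix

namespace Vale.Agent.P011LN

open Vale.Agent.P011L Vale.Agent.P011LT Vale.Agent.P011LA

variable {K : Type} [Field K] [CharZero K] {Ψ : SD K →* Matrix I I K}

/-- polynomial representations -/
def PolM (Ψ : SD K →* Matrix I I K) : Prop := ∀ a b, ∃ p : MvPolynomial (I × I) K,
  ∀ g, Ψ g a b = MvPolynomial.eval (fun e => g.1.1 e.1 e.2) p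

theorem PolM.ux (h : PolM Ψ) {X : Matrix I I K} (hX : Nl X) (a b : I) :
    (fun s => Ψ (ux hX s) a b) ∈ P1 K := by
  obtain ⟨p, hp⟩ := h a b
  simp only [hp, ux_val]
  exact pol_mem (P1 K) (f := fun (e : I × I) (s : K) => (1 + s • X : Matrix I I K) e.1 e.2)
    (fun e => lin_P1 ((1 : Matrix I I K) e.1 e.2) (X e.1 e.2)) p

theorem PolM.tau (h : PolM Ψ) (a b : I) : (fun t => Ψ (tau t) a b) ∈ Sp K ⊤ := by
  obtain ⟨p, hp⟩ := h a b
  simp only [hp, tau_val]
  exact pol_mem (Sp K ⊤) (f := fun (e : I × I) (t : Fin 4 → Kˣ) => dg t e.1 e.2)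
    (fun e => diag_mem (fun _ => AddSubgroup.mem_top _) e.1 e.2) p

theorem wt_refl {μ : Fin 4 → ℤ} (h : Wt (fun t => Ψ (tau t)) μ) (r : Fin 4) :
    Wt (fun t => Ψ (tau t)) (μ - μ r • al r) :=
  h.conj (n := Ψ (nn r)) (n' := Ψ (nn r)⁻¹) (by rw [← map_mul, inv_mul_cancel, map_one]) fun t => by
    obtain ⟨u, a, b⟩ := tau_nn (K := K) r t
    exact ⟨u, by rw [← map_mul, a, map_mul], b μ⟩

theorem wt_sat (hp : PolM Ψ) {μ : Fin 4 → ℤ} (h : Wt (fun t => Ψ (tau t)) μ) {r : Fin 4}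
    (hr : 0 < μ r) : Wt (fun t => Ψ (tau t)) (μ - al r) :=
  sat (X := fun s => Ψ (ux (nl_em r) s)) (Y := fun s => Ψ (ux (nl_fm r) s)) (hp.ux _) (hp.ux _)
    (fun t s => by rw [← map_mul, tau_ux _ (sh_em r), map_mul])
    (fun t s => by rw [← map_mul, tau_ux _ (sh_fm r), map_mul])
    (by rw [ux_zero, map_one]) (by rw [ux_zero, map_one]) (fun s t => by rw [ux_add, map_mul]) hr
    (al_ne r) (fun t => by
      obtain ⟨u, a, b⟩ := tau_nn (K := K) r t
      exact ⟨u, by simp only [← map_mul]; exact congrArg Ψ a, b μ⟩) h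

/-- the class of a weight -/
def Cl (j : Fin 3) (y : Fin 4 → ℤ) : Prop := ∀ i, Even (od i y) ↔ i = j

theorem od_al : ∀ i r, Even (od i (al r)) := by decide +kernel

theorem Cl.sub {j : Fin 3} {y : Fin 4 → ℤ} (h : Cl j y) (m : ℤ) (r : Fin 4) : Cl j (y - m • al r) :=
  fun i => by
    rw [show od i (y - m • al r) = od i y - m * od i (al r) by simp [od]; ring, Int.even_sub, h]
    simp [(od_al i r).mul_left m]

theorem zs_ne : ∀ j : Fin 3, zs (j + 1) j.castSucc = -1 := by decide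

theorem zs_iff : ∀ i j : Fin 3, (zs i j.castSucc = 1 ↔ i = j) ∧ (zs i j.castSucc = -1 ↔ i ≠ j) := by
  decide

theorem zs_inj : ∀ j k : Fin 4, (∀ i, zs i j = zs i k) → j = k := by decide

theorem exists_cl (hp : PolM Ψ) (hb : ∀ g, Bd (Ψ g)) (hz : ∀ i, Ψ (tau (zt K i)) = dg (zt K i))
    (j : Fin 3) : ∃ y, Wt (fun t => Ψ (tau t)) y ∧ Cl j y := by
  let c : Fin 4 → K := fun k => if k = j.castSucc then 1 else 0
  let P : Matrix I I K := diagonal fun p => c (blk p)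
  have PP : P * P = P := by
    rw [diagonal_mul_diagonal]
    exact congrArg diagonal (funext fun p => by simp only [c]; split_ifs <;> simp)
  have cm : ∀ g, Ψ g * P = P * Ψ g := fun g => (hb g).comm c
  let ρ : (Fin 4 → Kˣ) →* Matrix I I K :=
    { toFun := fun t => Ψ (tau t) * P + (1 - P)
      map_one' := by rw [map_one, map_one, one_mul, add_sub_cancel]
      map_mul' := fun t u => by
        have a : P * (Ψ (tau u) * P) = Ψ (tau u) * P := by rw [← mul_assoc, ← cm, mul_assoc, PP]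
        simp only [map_mul, add_mul, mul_add, mul_assoc, mul_sub, sub_mul, mul_one, one_mul, a, PP]
        abel }
  obtain ⟨y, y0, v, v0, hv⟩ := exists_wt ρ (fun a b => by
    have : (fun t => ρ t a b) = c (blk b) • (fun t => Ψ (tau t) a b) + algebraMap K _ ((1 - P) a b) :=
      funext fun t => by
        show (Ψ (tau t) * P + (1 - P)) a b = c (blk b) * _ + _
        rw [Matrix.add_apply, mul_diagonal, mul_comm]; rfl
    rw [this]
    exact add_mem (Subalgebra.smul_mem _ (hp.tau a b) _) (Subalgebra.algebraMap_mem _ _))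
    ⟨zt K (j + 1), fun e => by
      have a : (Ψ (tau (zt K (j + 1))) * P + (1 - P)) (1, j, 2) (1, j, 2) = (1 : Matrix I I K) _ _ :=
        congrFun (congrFun e (1, j, 2)) (1, j, 2)
      rw [hz, dg_zt, Matrix.add_apply, Matrix.sub_apply, mul_diagonal, diagonal_apply_eq] at a
      simp only [P, diagonal_apply_eq, one_apply_eq, show blk (1, j, 2) = j.castSucc from rfl, zs_ne,
        c, if_true] at a
      norm_num at a⟩
  obtain ⟨t, ht⟩ : ∃ t, (ch y t : K) ≠ 1 := by_contra fun h => by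
    push Not at h
    exact y0 (ch_inj (K := K) (MonoidHom.ext fun t => (h t).trans (ch_zero t).symm))
  have h1 : P *ᵥ v = v := by
    have a : (1 - P) * ρ t = 1 - P := by
      show (1 - P) * (Ψ (tau t) * P + (1 - P)) = _
      rw [cm]
      simp only [mul_add, mul_sub, sub_mul, mul_one, one_mul, ← mul_assoc, PP]
      abel
    have b := congrArg ((1 - P) *ᵥ ·) (hv t)
    simp only [mulVec_mulVec, a, mulVec_smul] at b
    have b2 : (ch y t - 1 : K) • (1 - P) *ᵥ v = 0 := by rw [sub_smul, ← b, one_smul, sub_self]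
    have b3 := (smul_eq_zero.1 b2).resolve_left (sub_ne_zero.2 ht)
    rw [sub_mulVec, one_mulVec] at b3
    exact (sub_eq_zero.1 b3).symm
  have h2 : ∀ t, Ψ (tau t) *ᵥ v = ch y t • v := fun t => by
    rw [← hv]
    show _ = (Ψ (tau t) * P + (1 - P)) *ᵥ v
    rw [add_mulVec, ← mulVec_mulVec, sub_mulVec, h1, one_mulVec, sub_self, add_zero]
  refine ⟨y, ⟨v, v0, h2⟩, fun i => ?_⟩
  obtain ⟨a, ha⟩ := Function.ne_iff.1 v0
  have h3 : blk a = j.castSucc := by_contra fun e => ha (by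
    rw [← h1, mulVec_diagonal]; simp [c, e])
  have h4 := congrFun (h2 (zt K i)) a
  rw [hz, dg_zt, mulVec_diagonal, Pi.smul_apply, smul_eq_mul, h3, ch_zt] at h4
  have h5 := mul_right_cancel₀ ha h4
  split_ifs at h5 with e
  · exact iff_of_true e ((zs_iff i j).1.1 (by exact_mod_cast h5))
  · exact iff_of_false e ((zs_iff i j).2.1 (by exact_mod_cast h5))

/-- the invariant norm -/
def N4 (y : Fin 4 → ℤ) : ℤ := (2 * y 3 + 2 * y 0 + y 1 + y 2) ^ 2 + (2 * y 3 + y 1 + y 2) ^ 2 +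
  (y 1 + y 2) ^ 2 + (y 2 - y 1) ^ 2

theorem N4_sub (y : Fin 4 → ℤ) (m : ℤ) (r : Fin 4) :
    N4 (y - m • al r) = N4 y - 8 * m * y r + 8 * m ^ 2 := by
  fin_cases r <;> simp [N4, al] <;> ring

theorem fin_cert : ∀ j a b c d : Fin 3, |(a : ℤ) + d - 2| ≤ 1 → |(b : ℤ) + d - 2| ≤ 1 →
    |(c : ℤ) + d - 2| ≤ 1 → |(a : ℤ) + b + d - 3| ≤ 1 → |(a : ℤ) + c + d - 3| ≤ 1 →
    |(b : ℤ) + c + d - 3| ≤ 1 → |(a : ℤ) + b + c + d - 4| ≤ 1 → |(a : ℤ) + b + c + 2 * d - 5| ≤ 1 →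
    (∀ i, Even (od i ![(a : ℤ) - 1, b - 1, c - 1, d - 1]) ↔ i = j) →
    ∃ p, blk p = j.castSucc ∧ ∀ r, wt p r = ![(a : ℤ) - 1, b - 1, c - 1, d - 1] r := by
  decide +kernel

theorem all_wt (hp : PolM Ψ) (hb : ∀ g, Bd (Ψ g)) (hz : ∀ i, Ψ (tau (zt K i)) = dg (zt K i))
    {p : I} (h3 : blk p ≠ 3) : Wt (fun t => Ψ (tau t)) (wt p) := by
  obtain ⟨j, hj⟩ := blk_cases h3
  obtain ⟨y, hy, hm⟩ := (InvImage.wf (fun y => (N4 y).toNat) Nat.lt_wfRel.wf).has_min
    {y | Wt (fun t => Ψ (tau t)) y ∧ Cl j y} (exists_cl hp hb hz j)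
  let M : (Fin 4 → ℤ) → Prop := fun z => (Wt (fun t => Ψ (tau t)) z ∧ Cl j z) ∧ N4 z = N4 y
  have m1 : ∀ z, M z → ∀ r, M (z - z r • al r) := fun z h r =>
    ⟨⟨wt_refl h.1.1 r, h.1.2.sub _ r⟩, by rw [N4_sub, h.2]; ring⟩
  have m2 : ∀ z, M z → ∀ r, z r ≤ 1 := fun z h r => by_contra fun e =>
    hm (z - al r) ⟨wt_sat hp h.1.1 (by omega), by simpa using h.1.2.sub 1 r⟩ (by
      have a := N4_sub z 1 r
      have b : 0 ≤ N4 (z - al r) := by unfold N4; positivity
      rw [one_smul, h.2] at a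
      show (N4 (z - al r)).toNat < (N4 y).toNat
      omega)
  have m3 : ∀ z, M z → ∀ r, |z r| ≤ 1 := fun z h r => by
    have a := m2 _ (m1 z h r) r
    have b := m2 z h r
    rw [Pi.sub_apply, Pi.smul_apply, al_self, smul_eq_mul] at a
    rw [abs_le]; omega
  have y0 : M y := ⟨hy, rfl⟩
  have ex : ∀ r, ∃ a : Fin 3, y r = a - 1 := fun r => by
    have := abs_le.1 (m3 y y0 r)
    exact ⟨⟨(y r + 1).toNat, by omega⟩, by simp only; omega⟩
  obtain ⟨a, ha⟩ := ex 0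
  obtain ⟨b, hb⟩ := ex 1
  obtain ⟨c, hc⟩ := ex 2
  obtain ⟨d, hd⟩ := ex 3
  have e : y = ![(a : ℤ) - 1, b - 1, c - 1, d - 1] := funext fun r => by
    fin_cases r <;> assumption
  have b1 := m3 _ (m1 _ y0 0) 3
  have b2 := m3 _ (m1 _ y0 1) 3
  have b3 := m3 _ (m1 _ y0 2) 3
  have b4 := m3 _ (m1 _ (m1 _ y0 0) 1) 3
  have b5 := m3 _ (m1 _ (m1 _ y0 0) 2) 3
  have b6 := m3 _ (m1 _ (m1 _ y0 1) 2) 3
  have b7 := m3 _ (m1 _ (m1 _ (m1 _ y0 0) 1) 2) 3
  have b8 := m3 _ (m1 _ (m1 _ (m1 _ (m1 _ y0 3) 0) 1) 2) 3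
  simp [al, ha, hb, hc, hd, abs_le] at b1 b2 b3 b4 b5 b6 b7 b8
  obtain ⟨q, q1, q2⟩ := fin_cert j a b c d (by rw [abs_le]; omega) (by rw [abs_le]; omega)
    (by rw [abs_le]; omega) (by rw [abs_le]; omega) (by rw [abs_le]; omega) (by rw [abs_le]; omega)
    (by rw [abs_le]; omega) (by rw [abs_le]; omega) (e ▸ hy.2)
  exact blk_trans (P := fun p => Wt (fun t => Ψ (tau t)) (wt p))
    (fun r p h => wt_rf r p ▸ wt_refl h r) (p := q) (by rw [q1, ← hj]; exact h3) (hj.trans q1.symm)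
    (by rw [show wt q = y from e ▸ funext q2]; exact hy.1)

theorem exists_s1 (hp : PolM Ψ) (hb : ∀ g, Bd (Ψ g)) (hf : ∀ g, Fx (Ψ g))
    (hz : ∀ i, Ψ (tau (zt K i)) = dg (zt K i)) :
    ∃ s : GL I K, Bd s.1 ∧ Fx s.1 ∧ ∀ t, Ψ (tau t) * s.1 = s.1 * dg t := by
  have h1 : ∀ p, ∃ v : I → K, v ≠ 0 ∧ (∀ t, Ψ (tau t) *ᵥ v = ch (wt p) t • v) ∧ Sup (blk p) v ∧
      (blk p = 3 → v = ev p) := fun p => by
    by_cases h : blk p = 3
    · refine ⟨ev p, fun e => one_ne_zero ((ev_self p).symm.trans (congrFun e p)), fun t => ?_,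
        sup_ev p, fun _ => rfl⟩
      rw [blk3 p h, hf, wt_ix, ch_zero, one_smul]
    · obtain ⟨v, a, b⟩ := all_wt hp hb hz h
      refine ⟨v, a, b, fun q e => by_contra fun e' => e (zs_inj _ _ fun i => ?_), fun e => absurd e h⟩
      have c : (Ψ (tau (zt K i)) *ᵥ v) q = _ := congrFun (b (zt K i)) q
      have d : dg (zt K i) p p = ch (wt p) (zt K i) := diagonal_apply_eq _ _
      rw [hz, ← d, dg_zt, mulVec_diagonal, diagonal_apply_eq, Pi.smul_apply, smul_eq_mul] at c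
      exact_mod_cast mul_right_cancel₀ e' c
  choose v v0 v1 v2 v3 using h1
  have li : LinearIndependent K v := Fintype.linearIndependent_iff.2 fun c e p => by
    by_cases h : blk p = 3
    · have := congrFun e p
      rwa [Finset.sum_apply, Finset.sum_eq_single p (fun q _ a => by
        by_cases h' : blk q = 3
        · rw [v3 q h', Pi.smul_apply, ev_ne a.symm, smul_zero]
        · rw [Pi.smul_apply, v2 q p (h ▸ Ne.symm h'), smul_zero]) (by simp), v3 p h, Pi.smul_apply,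
        ev_self, smul_eq_mul, mul_one] at this
    · refine (smul_eq_zero.1 (sep (ρ := fun t => Ψ (tau t)) (μ := wt p) (Finset.univ.erase p) wt
        (fun q a b => (wt_inj b).elim (Finset.ne_of_mem_erase a) fun x => h x.2)
        (fun q => -(c q • v q)) (c p • v p) (fun q _ t => ?_) (fun t => ?_) ?_)).resolve_right (v0 p)
      · rw [mulVec_neg, mulVec_smul, v1, smul_neg, smul_comm]
      · rw [mulVec_smul, v1, smul_comm]
      · rw [Finset.sum_neg_distrib, eq_neg_iff_add_eq_zero,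
          Finset.add_sum_erase _ (fun q => c q • v q) (Finset.mem_univ p), e]
  obtain ⟨s, hs⟩ : IsUnit (of v)ᵀ := linearIndependent_cols_iff_isUnit.1 li
  refine ⟨s, fun a b e => hs ▸ v2 b a e, fun i => funext fun a => ?_, fun t => ?_⟩
  · rw [mulVec_ev, hs, ← v3 (ix i) (if_pos rfl |>.trans (if_pos rfl))]; rfl
  · rw [hs]
    ext a b
    rw [dg, mul_diagonal, mul_comm]
    exact congrFun (v1 b t) a

end Vale.Agent.P011LN
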